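import Vale.Agent.P155.Skel

/-!
# P155, block J: interface statements consumed by block J

Nothing is assumed here: these are `Prop`s, proved by the owners of the blocks.
-/

namespace Vale.Agent.P155.J

open Finset Skel

/-- `χ` is a cut-off function for the set `O` at scale `s`. -/
structure IsCut (O : Set Pt) (s : ℕ) (C : ℝ) (χ : Pt → ℝ) : Prop where
  nonneg : ∀ x, 0 ≤ χ x
  le_one : ∀ x, χ x ≤ 1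
  zero : ∀ x, dF O x ≤ s → χ x = 0
  one : ∀ x, 2 * s ≤ dF O x → χ x = 1
  diff : ∀ a b : ℕ, a + b ≤ 4 → ∀ y, |(Dx^[a] (Dy^[b] χ)) y| ≤ C * ((s : ℝ)⁻¹) ^ (a + b)

open Classical in
/-- The layer function `f = φ 1_O + Δ(χ u)`; it vanishes where `χ = 1` in a neighbourhood. -/
noncomputable def fL (O : Set Pt) (φ χ u : Pt → ℝ) (x : Pt) : ℝ :=
  (if x ∈ O then φ x else 0) + lap (fun y => χ y * u y) x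

/-- LAYER LEMMA, final form (owners: H for `k ≥ 1`, I for `k = 0`): the layer function contributes
nothing to the field. No measurability in `ω` of the cut-off is needed in this form. -/
def H_final : Prop := ∃ a0 > (0 : ℝ), ∀ a : ℝ, 0 < a → a ≤ a0 → ∀ (k : ℕ) (C0 : ℝ),
  ∃ c > (0 : ℝ), ∃ C : ℝ, ∀ (R : ℕ) (T : Temp) (φ : Pt → ℝ),
  1 ≤ R → Fits T R → IsBump (0, 0) R (C0 / (R : ℝ) ^ 2) φ →
  (∀ y, φ y ≠ 0 → (R : ℝ) ≤ C0 * dF T.faceSet y) → ∀ u χ : Conf → Pt → ℝ,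
  (∀ ω ∈ DD T.V, IsGreen (Ok T k ω) φ (u ω)) →
  (∀ ω ∈ DD T.V, IsCut (Ok T k ω) ⌈(R : ℝ) ^ a⌉₊ C0 (χ ω)) →
  Ex T.V (fun ω => cEx T.V (Fk T.V k)
    (fun ω' => (hkf k ω' (fL (Ok T k ω) φ (χ ω) (u ω))) ^ 2) ω) ≤ C * (R : ℝ) ^ (-c)

/-- WHITNEY PARTITION, final form (owner: G4/G5). `t n` is the bump scale used at distance
about `n`. -/
def W_final : Prop := ∀ C0 : ℝ, ∃ C : ℝ, ∀ (R : ℕ) (O : Set Pt) (φ u : Pt → ℝ) (s M : ℕ)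
  (t : ℕ → ℕ), 1 ≤ R → O ⊆ (box (0, 0) R : Set Pt) → CP O →
  IsBump (0, 0) R (C0 / (R : ℝ) ^ 2) φ → IsGreen O φ u →
  64 ≤ s → s ≤ M → M ≤ R → (∀ n, s ≤ 16 * n → 1 ≤ t n ∧ 16 * t n ≤ n) →
  ∃ χ : Pt → ℝ, IsCut O s C χ ∧
  ∃ (I : Finset ℕ) (x : ℕ → Pt) (n : ℕ → ℕ) (H : ℕ → ℝ) (ψ : ℕ → Pt → ℝ),
    (∀ q ∈ I, s ≤ 16 * n q ∧ n q ≤ M ∧ 4 * n q ≤ dF O (x q) ∧ 0 ≤ H q ∧
      IsBump (x q) (t (n q)) (H q) (ψ q)) ∧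
    (∀ y, χ y * u y = ∑ q ∈ I, ψ q y) ∧
    (∀ m : ℕ, (∑ q ∈ I.filter (fun q => n q = m), H q) * (t m : ℝ) ^ 2 ≤
      C * (if 2 * m ≤ M then (m : ℝ) ^ 2 else (R : ℝ) ^ 2)) ∧
    ((I.image n).card : ℝ) ≤ C * (1 + Real.log R)

/-- vertices all of whose four faces are in `O^{(k)}` are unexplored (owner: A7) -/
def L_in : Prop := ∀ (T : Temp) (k : ℕ), ∀ ω ∈ DD T.V, ∀ v : Pt,
  (∀ f : Pt, v.1 - 1 ≤ f.1 → f.1 ≤ v.1 → v.2 - 1 ≤ f.2 → f.2 ≤ v.2 → f ∈ Ok T k ω) →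
  v ∈ Vk T.V k ω

/-- `h^{(k)}` agrees on adjacent faces of `O^{(k)}` (owner: A7) -/
def L_const : Prop := ∀ (T : Temp) (k : ℕ), ∀ ω ∈ DD T.V, ∀ x y : Pt, Adj x y →
  x ∈ Ok T k ω → y ∈ Ok T k ω → hk k ω x = hk k ω y

/-- Discrete form of the martingale identity `(*_k)`, the output of block J for block K. -/
def J_star : Prop := ∀ (k : ℕ) (Θ C0 : ℝ), ∃ c > (0 : ℝ), ∃ C : ℝ,
  ∀ (R : ℕ) (T : Temp) (φ : Pt → ℝ), 1 ≤ R → Fits T R → IsBump (0, 0) R (C0 / (R : ℝ) ^ 2) φ →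
  (∀ y, φ y ≠ 0 → (R : ℝ) ≤ C0 * dF T.faceSet y) → ∀ θ : ℝ, |θ| ≤ Θ →
  ∀ u u' : Conf → Pt → ℝ, (∀ ω ∈ DD T.V, IsGreen (Ok T k ω) φ (u ω)) →
  (∀ ω ∈ DD T.V, IsGreen (Ok T (k + 1) ω) φ (u' ω)) →
  ∀ F : Conf → ℂ, (∀ ω ∈ DD T.V, ‖F ω‖ ≤ 1) →
  (∀ ω ∈ DD T.V, ∀ ω' ∈ DD T.V, AgreeOff (Fk T.V k ω) ω ω' → F ω' = F ω) →
  ‖Ex T.V (fun ω => F ω * Complex.exp (Complex.I * θ *
        (∑ᶠ x : Pt, φ x * ((hk (k + 1) ω x : ℝ) - hk k ω x) : ℝ)) *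
        (Real.exp (-θ ^ 2 / Real.pi * pair φ (u' ω)) : ℝ)) -
    Ex T.V (fun ω => F ω * (Real.exp (-θ ^ 2 / Real.pi * pair φ (u ω)) : ℝ))‖ ≤
    C * (R : ℝ) ^ (-c)

end Vale.Agent.P155.J
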