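import Vale.Agent.P155.J.JMain

/-!
# P155, block J: the discrete martingale identity `J_star` from `J_main`
-/

namespace Vale.Agent.P155.J

open Finset Skel

/-- deeper explorations explore more (owner: A7) -/
def L_mono : Prop := ∀ (T : Temp) (k : ℕ), ∀ ω ∈ DD T.V, Vk T.V (k + 1) ω ⊆ Vk T.V k ω

theorem sub_swap (A B C : ℂ) : ‖A - B‖ ≤ ‖C - A‖ + ‖C - B‖ := by
  calc ‖A - B‖ = ‖(C - B) - (C - A)‖ := by congr 1; ring
    _ ≤ ‖C - B‖ + ‖C - A‖ := norm_sub_le _ _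
    _ = _ := add_comm _ _

theorem j_star (hJ : J_main) (hex : L_expl) (hhk : L_hk) (hmono : L_mono) : J_star := by
  intro k Θ C0
  obtain ⟨c1, hc1, C1, h1⟩ := hJ k Θ C0
  obtain ⟨c2, hc2, C2, h2⟩ := hJ (k + 1) Θ C0
  refine ⟨min c1 c2, lt_min hc1 hc2, |C1| + |C2|, ?_⟩
  intro R T φ hR hT hφ hsupp θ hθ u u' hu hu' F hF hFm
  have hRr : (1 : ℝ) ≤ R := by exact_mod_cast hR
  have hR0 : (0 : ℝ) < R := by linarith
  have hfs : FS φ := IsBump.fs hφ
  have g1 := h1 R T φ hR hT hφ hsupp θ hθ u hu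
  have g2 := h2 R T φ hR hT hφ hsupp θ hθ u' hu'
  set D : Conf → ℝ := fun ω => ∑ᶠ x : Pt, φ x * ((hk (k + 1) ω x : ℝ) - hk k ω x) with hD
  set A : ℂ := Ex T.V (fun ω => F ω * Complex.exp (Complex.I * θ * D ω) *
    (Real.exp (-θ ^ 2 / Real.pi * pair φ (u' ω)) : ℝ)) with hA
  set B : ℂ := Ex T.V (fun ω => F ω * (Real.exp (-θ ^ 2 / Real.pi * pair φ (u ω)) : ℝ)) with hB
  set C : ℂ := Ex T.V (fun ω => F ω * Complex.exp (Complex.I * θ * hkf k ω φ)) with hC
  have hsplit : ∀ ω, hkf k ω φ = D ω + hkf (k + 1) ω φ := by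
    intro ω
    simp only [hD]
    unfold hkf
    rw [← finsum_add_distrib (hfs.mul_right _) (hfs.mul_right _)]
    exact finsum_congr (fun x => by ring)
  -- measurability of the first factor at level `k + 1`
  have hmeas : ∀ ω ∈ DD T.V, ∀ ω' ∈ DD T.V, AgreeOff (Fk T.V (k + 1) ω) ω ω' →
      F ω' * Complex.exp (Complex.I * θ * D ω') = F ω * Complex.exp (Complex.I * θ * D ω) := by
    intro ω hω ω' hω' hag
    have hag' : AgreeOff (Fk T.V k ω) ω ω' :=
      agreeOff_mono hag (hmono T k ω hω) (hmono T k ω hω)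
    have e1 := (hhk T (k + 1) ω hω ω' hω' hag).2.1
    have e2 := (hhk T k ω hω ω' hω' hag').2.1
    rw [hFm ω hω ω' hω' hag']
    simp only [hD]
    rw [e1, e2]
  have hCA : C = Ex T.V (fun ω => (F ω * Complex.exp (Complex.I * θ * D ω)) *
      cEx T.V (Fk T.V (k + 1)) (fun ω' => Complex.exp (Complex.I * θ * hkf (k + 1) ω' φ)) ω) := by
    rw [Ex_mul_cEx (hex T (k + 1)) hmeas, hC]
    refine avg_congr (fun ω _ => ?_)
    have e : Complex.exp (Complex.I * θ * (hkf k ω φ : ℝ)) = Complex.exp (Complex.I * θ * D ω) *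
        Complex.exp (Complex.I * θ * hkf (k + 1) ω φ) := by
      rw [← Complex.exp_add, hsplit ω]
      congr 1
      push_cast
      ring
    rw [e]; ring
  have hCB : C = Ex T.V (fun ω => F ω *
      cEx T.V (Fk T.V k) (fun ω' => Complex.exp (Complex.I * θ * hkf k ω' φ)) ω) := by
    rw [Ex_mul_cEx (hex T k) hFm]
  have nA : ‖C - A‖ ≤ |C2| * (R : ℝ) ^ (-min c1 c2) := by
    have e : C - A = Ex T.V (fun ω => (F ω * Complex.exp (Complex.I * θ * D ω)) *
        (cEx T.V (Fk T.V (k + 1)) (fun ω' => Complex.exp (Complex.I * θ * hkf (k + 1) ω' φ)) ω -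
        (Real.exp (-θ ^ 2 / Real.pi * pair φ (u' ω)) : ℝ))) := by
      rw [hCA, hA, Ex_eq_avg, Ex_eq_avg, Ex_eq_avg, ← avg_sub]
      exact avg_congr (fun ω _ => by ring)
    rw [e]
    calc ‖Ex T.V (fun ω => (F ω * Complex.exp (Complex.I * θ * D ω)) *
        (cEx T.V (Fk T.V (k + 1)) (fun ω' => Complex.exp (Complex.I * θ * hkf (k + 1) ω' φ)) ω -
        (Real.exp (-θ ^ 2 / Real.pi * pair φ (u' ω)) : ℝ)))‖
        ≤ avg (DD T.V) (fun ω => ‖(F ω * Complex.exp (Complex.I * θ * D ω)) *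
        (cEx T.V (Fk T.V (k + 1)) (fun ω' => Complex.exp (Complex.I * θ * hkf (k + 1) ω' φ)) ω -
        (Real.exp (-θ ^ 2 / Real.pi * pair φ (u' ω)) : ℝ))‖) := norm_avg_le _ _
      _ ≤ Ex T.V (fun ω => ‖cEx T.V (Fk T.V (k + 1))
          (fun ω' => Complex.exp (Complex.I * θ * hkf (k + 1) ω' φ)) ω -
          (Real.exp (-θ ^ 2 / Real.pi * pair φ (u' ω)) : ℝ)‖) := by
          apply Ex_mono
          intro ω hω
          rw [norm_mul, norm_mul, norm_exp_I, mul_one]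
          exact mul_le_of_le_one_left (norm_nonneg _) (hF ω hω)
      _ ≤ C2 * (R : ℝ) ^ (-c2) := g2
      _ ≤ |C2| * (R : ℝ) ^ (-min c1 c2) := by
          apply mul_le_mul (le_abs_self _) _ (by positivity) (abs_nonneg _)
          exact Real.rpow_le_rpow_of_exponent_le hRr (by linarith [min_le_right c1 c2])
  have nB : ‖C - B‖ ≤ |C1| * (R : ℝ) ^ (-min c1 c2) := by
    have e : C - B = Ex T.V (fun ω => F ω *
        (cEx T.V (Fk T.V k) (fun ω' => Complex.exp (Complex.I * θ * hkf k ω' φ)) ω -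
        (Real.exp (-θ ^ 2 / Real.pi * pair φ (u ω)) : ℝ))) := by
      rw [hCB, hB, Ex_eq_avg, Ex_eq_avg, Ex_eq_avg, ← avg_sub]
      exact avg_congr (fun ω _ => by ring)
    rw [e]
    calc ‖Ex T.V (fun ω => F ω *
        (cEx T.V (Fk T.V k) (fun ω' => Complex.exp (Complex.I * θ * hkf k ω' φ)) ω -
        (Real.exp (-θ ^ 2 / Real.pi * pair φ (u ω)) : ℝ)))‖
        ≤ avg (DD T.V) (fun ω => ‖F ω *
        (cEx T.V (Fk T.V k) (fun ω' => Complex.exp (Complex.I * θ * hkf k ω' φ)) ω -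
        (Real.exp (-θ ^ 2 / Real.pi * pair φ (u ω)) : ℝ))‖) := norm_avg_le _ _
      _ ≤ Ex T.V (fun ω => ‖cEx T.V (Fk T.V k)
          (fun ω' => Complex.exp (Complex.I * θ * hkf k ω' φ)) ω -
          (Real.exp (-θ ^ 2 / Real.pi * pair φ (u ω)) : ℝ)‖) := by
          apply Ex_mono
          intro ω hω
          rw [norm_mul]
          exact mul_le_of_le_one_left (norm_nonneg _) (hF ω hω)
      _ ≤ C1 * (R : ℝ) ^ (-c1) := g1
      _ ≤ |C1| * (R : ℝ) ^ (-min c1 c2) := by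
          apply mul_le_mul (le_abs_self _) _ (by positivity) (abs_nonneg _)
          exact Real.rpow_le_rpow_of_exponent_le hRr (by linarith [min_le_left c1 c2])
  calc ‖A - B‖ ≤ ‖C - A‖ + ‖C - B‖ := sub_swap A B C
    _ ≤ |C2| * (R : ℝ) ^ (-min c1 c2) + |C1| * (R : ℝ) ^ (-min c1 c2) := add_le_add nA nB
    _ = _ := by ring

end Vale.Agent.P155.J
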