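import Vale.Agent.P155.Defs2

/-!
# P155, block J: finite averages, conditional expectations given an exploration

`avg s g` is the average of `g` over the finite set `s`; `Ex V g = avg (DD V) g` and
`cEx V X g ω = avg (atom V X ω) g` by definition.
-/

namespace Vale.Agent.P155.J

open Finset

/-! ## Averages over finite sets -/

section avg

variable {α : Type*} {E : Type*}

/-- average over a finite set -/
noncomputable def avg [AddCommMonoid E] [Module ℝ E] (s : Finset α) (g : α → E) : E :=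
  ((s.card : ℝ))⁻¹ • ∑ a ∈ s, g a

theorem avg_congr [AddCommMonoid E] [Module ℝ E] {s : Finset α} {g g' : α → E}
    (h : ∀ a ∈ s, g a = g' a) : avg s g = avg s g' := by
  unfold avg; rw [Finset.sum_congr rfl h]

theorem avg_add [AddCommGroup E] [Module ℝ E] (s : Finset α) (g g' : α → E) :
    avg s (fun a => g a + g' a) = avg s g + avg s g' := by
  unfold avg; rw [Finset.sum_add_distrib, smul_add]

theorem avg_sub [AddCommGroup E] [Module ℝ E] (s : Finset α) (g g' : α → E) :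
    avg s (fun a => g a - g' a) = avg s g - avg s g' := by
  unfold avg; rw [Finset.sum_sub_distrib, smul_sub]

theorem avg_neg [AddCommGroup E] [Module ℝ E] (s : Finset α) (g : α → E) :
    avg s (fun a => - g a) = - avg s g := by
  unfold avg; rw [Finset.sum_neg_distrib, smul_neg]

theorem avg_sum [AddCommGroup E] [Module ℝ E] {ι : Type*} (s : Finset α) (I : Finset ι)
    (g : ι → α → E) : avg s (fun a => ∑ i ∈ I, g i a) = ∑ i ∈ I, avg s (g i) := by
  unfold avg; rw [Finset.sum_comm, Finset.smul_sum]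

theorem avg_const [AddCommGroup E] [Module ℝ E] {s : Finset α} (hs : s.Nonempty) (c : E) :
    avg s (fun _ => c) = c := by
  unfold avg
  have h : (s.card : ℝ) ≠ 0 := by exact_mod_cast hs.card_pos.ne'
  rw [Finset.sum_const, ← Nat.cast_smul_eq_nsmul ℝ, smul_smul, inv_mul_cancel₀ h, one_smul]

theorem avg_zero [AddCommGroup E] [Module ℝ E] (s : Finset α) :
    avg s (fun _ => (0 : E)) = 0 := by
  unfold avg; simp

theorem avg_real (s : Finset α) (g : α → ℝ) : avg s g = (s.card : ℝ)⁻¹ * ∑ a ∈ s, g a := rfl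

theorem avg_mul_left (s : Finset α) (c : ℝ) (g : α → ℝ) :
    avg s (fun a => c * g a) = c * avg s g := by
  unfold avg; rw [← Finset.mul_sum, smul_eq_mul, smul_eq_mul]; ring

theorem avg_mul_right (s : Finset α) (c : ℝ) (g : α → ℝ) :
    avg s (fun a => g a * c) = avg s g * c := by
  unfold avg; rw [← Finset.sum_mul, smul_eq_mul, smul_eq_mul]; ring

theorem avg_cmul_left (s : Finset α) (c : ℂ) (g : α → ℂ) :
    avg s (fun a => c * g a) = c * avg s g := by
  unfold avg; rw [← Finset.mul_sum]; simp only [Complex.real_smul]; ring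

theorem avg_cmul_right (s : Finset α) (c : ℂ) (g : α → ℂ) :
    avg s (fun a => g a * c) = avg s g * c := by
  unfold avg; rw [← Finset.sum_mul]; simp only [Complex.real_smul]; ring

theorem avg_mono {s : Finset α} {g g' : α → ℝ} (h : ∀ a ∈ s, g a ≤ g' a) :
    avg s g ≤ avg s g' := by
  unfold avg
  exact mul_le_mul_of_nonneg_left (Finset.sum_le_sum h) (by positivity)

theorem avg_nonneg {s : Finset α} {g : α → ℝ} (h : ∀ a ∈ s, 0 ≤ g a) : 0 ≤ avg s g := by
  unfold avg
  exact mul_nonneg (by positivity) (Finset.sum_nonneg h)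

theorem avg_le_const {s : Finset α} {g : α → ℝ} {c : ℝ} (hc : 0 ≤ c) (h : ∀ a ∈ s, g a ≤ c) :
    avg s g ≤ c := by
  rcases s.eq_empty_or_nonempty with rfl | hs
  · simpa [avg] using hc
  · calc avg s g ≤ avg s (fun _ => c) := avg_mono h
      _ = c := avg_const hs c

theorem norm_avg_le [SeminormedAddCommGroup E] [NormedSpace ℝ E] (s : Finset α) (g : α → E) :
    ‖avg s g‖ ≤ avg s (fun a => ‖g a‖) := by
  unfold avg
  rw [norm_smul, Real.norm_of_nonneg (by positivity)]
  exact mul_le_mul_of_nonneg_left (norm_sum_le _ _) (by positivity)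

theorem norm_avg_le_const [SeminormedAddCommGroup E] [NormedSpace ℝ E] {s : Finset α} {g : α → E}
    {c : ℝ} (hc : 0 ≤ c) (h : ∀ a ∈ s, ‖g a‖ ≤ c) : ‖avg s g‖ ≤ c :=
  (norm_avg_le s g).trans (avg_le_const hc h)

/-- Jensen / Cauchy–Schwarz. -/
theorem sq_avg_le (s : Finset α) (g : α → ℝ) : (avg s g) ^ 2 ≤ avg s (fun a => g a ^ 2) := by
  rcases s.eq_empty_or_nonempty with rfl | hs
  · simp [avg]
  · have h : (0 : ℝ) < s.card := by exact_mod_cast hs.card_pos
    have := sq_sum_le_card_mul_sum_sq (s := s) (f := g)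
    unfold avg
    rw [smul_eq_mul, smul_eq_mul, mul_pow]
    calc ((s.card : ℝ)⁻¹) ^ 2 * (∑ a ∈ s, g a) ^ 2
        ≤ ((s.card : ℝ)⁻¹) ^ 2 * (s.card * ∑ a ∈ s, g a ^ 2) :=
          mul_le_mul_of_nonneg_left this (by positivity)
      _ = (s.card : ℝ)⁻¹ * ∑ a ∈ s, g a ^ 2 := by field_simp

theorem avg_le_sqrt (s : Finset α) (g : α → ℝ) :
    avg s g ≤ Real.sqrt (avg s (fun a => g a ^ 2)) :=
  Real.le_sqrt_of_sq_le (sq_avg_le s g)

/-- Tower property: averaging first over the blocks `B ω` of a partition of `A`. -/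
theorem avg_tower [AddCommGroup E] [Module ℝ E] (A : Finset α) (B : α → Finset α)
    (hself : ∀ a ∈ A, a ∈ B a) (hsub : ∀ a ∈ A, B a ⊆ A)
    (heq : ∀ a ∈ A, ∀ b ∈ B a, B b = B a) (g : α → E) :
    avg A (fun a => avg (B a) g) = avg A g := by
  classical
  unfold avg
  congr 1
  have h1 : ∀ a ∈ A, (((B a).card : ℝ))⁻¹ • ∑ b ∈ B a, g b
      = ∑ b ∈ A, if b ∈ B a then (((B b).card : ℝ))⁻¹ • g b else 0 := by
    intro a ha
    rw [← Finset.sum_filter, Finset.smul_sum]
    have : A.filter (fun b => b ∈ B a) = B a := by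
      ext b
      simp only [Finset.mem_filter]
      exact ⟨fun h => h.2, fun h => ⟨hsub a ha h, h⟩⟩
    rw [this]
    exact Finset.sum_congr rfl (fun b hb => by rw [heq a ha b hb])
  rw [Finset.sum_congr rfl h1, Finset.sum_comm]
  refine Finset.sum_congr rfl (fun b hb => ?_)
  rw [← Finset.sum_filter, Finset.sum_const]
  have : A.filter (fun a => b ∈ B a) = B b := by
    ext a
    simp only [Finset.mem_filter]
    constructor
    · rintro ⟨ha, hba⟩
      have := heq a ha b hba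
      rw [this]; exact hself a ha
    · intro hab
      have haA := hsub b hb hab
      refine ⟨haA, ?_⟩
      rw [heq b hb a hab]
      exact hself b hb
  rw [this, ← Nat.cast_smul_eq_nsmul ℝ, smul_smul]
  have hne : ((B b).card : ℝ) ≠ 0 := by
    have : (B b).Nonempty := ⟨b, hself b hb⟩
    exact_mod_cast this.card_pos.ne'
  rw [mul_inv_cancel₀ hne, one_smul]

end avg

/-! ## Explorations -/

theorem agreeOff_refl (S : Set Pt × Set Pt) (ω : Conf) : AgreeOff S ω ω :=
  ⟨fun _ _ => rfl, fun _ _ => rfl⟩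

theorem agreeOff_symm {S : Set Pt × Set Pt} {ω ω' : Conf} (h : AgreeOff S ω ω') :
    AgreeOff S ω' ω := ⟨fun v hv => (h.1 v hv).symm, fun v hv => (h.2 v hv).symm⟩

theorem agreeOff_trans {S : Set Pt × Set Pt} {ω ω' ω'' : Conf} (h : AgreeOff S ω ω')
    (h' : AgreeOff S ω' ω'') : AgreeOff S ω ω'' :=
  ⟨fun v hv => (h'.1 v hv).trans (h.1 v hv), fun v hv => (h'.2 v hv).trans (h.2 v hv)⟩

theorem agreeOff_mono {S S' : Set Pt × Set Pt} {ω ω' : Conf} (h : AgreeOff S ω ω')
    (h1 : S.1 ⊆ S'.1) (h2 : S.2 ⊆ S'.2) : AgreeOff S' ω ω' :=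
  ⟨fun v hv => h.1 v (fun hh => hv (h1 hh)), fun v hv => h.2 v (fun hh => hv (h2 hh))⟩

theorem mem_atom {V : Finset Pt} {X : Expl} {ω ω' : Conf} :
    ω' ∈ atom V X ω ↔ ω' ∈ DD V ∧ AgreeOff (X ω) ω ω' := by
  classical
  unfold atom; simp only [Finset.mem_filter]

theorem self_mem_atom {V : Finset Pt} {X : Expl} {ω : Conf} (h : ω ∈ DD V) : ω ∈ atom V X ω :=
  mem_atom.2 ⟨h, agreeOff_refl _ _⟩

theorem atom_sub {V : Finset Pt} {X : Expl} {ω : Conf} : atom V X ω ⊆ DD V :=
  fun _ h => (mem_atom.1 h).1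

theorem atom_eq {V : Finset Pt} {X : Expl} (hX : IsExpl V X) {ω ω' : Conf} (h : ω ∈ DD V)
    (h' : ω' ∈ atom V X ω) : atom V X ω' = atom V X ω := by
  obtain ⟨h1, h2⟩ := mem_atom.1 h'
  have hX' : X ω' = X ω := hX.det ω h ω' h1 h2
  ext ω''
  rw [mem_atom, mem_atom, hX']
  exact ⟨fun ⟨a, b⟩ => ⟨a, agreeOff_trans h2 b⟩, fun ⟨a, b⟩ => ⟨a, agreeOff_trans (agreeOff_symm h2) b⟩⟩

theorem Ex_eq_avg {E : Type*} [AddCommMonoid E] [Module ℝ E] (V : Finset Pt) (g : Conf → E) :
    Ex V g = avg (DD V) g := rfl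

theorem cEx_eq_avg {E : Type*} [AddCommMonoid E] [Module ℝ E] (V : Finset Pt) (X : Expl)
    (g : Conf → E) (ω : Conf) : cEx V X g ω = avg (atom V X ω) g := rfl

theorem cEx_atom {E : Type*} [AddCommMonoid E] [Module ℝ E] {V : Finset Pt} {X : Expl}
    (hX : IsExpl V X) (g : Conf → E) {ω ω' : Conf} (h : ω ∈ DD V) (h' : ω' ∈ atom V X ω) :
    cEx V X g ω' = cEx V X g ω := by
  rw [cEx_eq_avg, cEx_eq_avg, atom_eq hX h h']

/-- `E[E[g|X]] = E g`. -/
theorem Ex_cEx {E : Type*} [AddCommGroup E] [Module ℝ E] {V : Finset Pt} {X : Expl}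
    (hX : IsExpl V X) (g : Conf → E) : Ex V (cEx V X g) = Ex V g :=
  avg_tower (DD V) (fun ω => atom V X ω) (fun _ h => self_mem_atom h) (fun _ _ => atom_sub)
    (fun _ h _ h' => atom_eq hX h h') g

/-- Tower property for a finer exploration `Y` at a given atom. -/
theorem cEx_cEx {E : Type*} [AddCommGroup E] [Module ℝ E] {V : Finset Pt} {X Y : Expl}
    (hY : IsExpl V Y) {ω : Conf}
    (hsub : ∀ ω' ∈ atom V X ω, atom V Y ω' ⊆ atom V X ω) (g : Conf → E) :
    cEx V X (cEx V Y g) ω = cEx V X g ω :=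
  avg_tower (atom V X ω) (fun ω => atom V Y ω) (fun _ h => self_mem_atom (atom_sub h)) hsub
    (fun _ h _ h' => atom_eq hY (atom_sub h) h') g

/-- pulling out a measurable factor, complex case -/
theorem cEx_mul_of_meas {V : Finset Pt} {X : Expl} {F g : Conf → ℂ} {ω : Conf}
    (hF : ∀ ω' ∈ atom V X ω, F ω' = F ω) :
    cEx V X (fun ω' => F ω' * g ω') ω = F ω * cEx V X g ω := by
  rw [cEx_eq_avg, cEx_eq_avg, ← avg_cmul_left]
  exact avg_congr (fun a ha => by rw [hF a ha])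

/-- `E[F g] = E[F E[g|X]]` for `X`-measurable `F`, complex case -/
theorem Ex_mul_cEx {V : Finset Pt} {X : Expl} (hX : IsExpl V X) {F g : Conf → ℂ}
    (hF : ∀ ω ∈ DD V, ∀ ω' ∈ DD V, AgreeOff (X ω) ω ω' → F ω' = F ω) :
    Ex V (fun ω => F ω * cEx V X g ω) = Ex V (fun ω => F ω * g ω) := by
  rw [← Ex_cEx hX (fun ω => F ω * g ω)]
  refine avg_congr (fun ω hω => ?_)
  rw [cEx_mul_of_meas]
  intro ω' hω'
  exact hF ω hω ω' (mem_atom.1 hω').1 (mem_atom.1 hω').2

/-- pulling out a measurable factor, real case -/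
theorem cEx_mul_of_meas_real {V : Finset Pt} {X : Expl} {F g : Conf → ℝ} {ω : Conf}
    (hF : ∀ ω' ∈ atom V X ω, F ω' = F ω) :
    cEx V X (fun ω' => F ω' * g ω') ω = F ω * cEx V X g ω := by
  rw [cEx_eq_avg, cEx_eq_avg, ← avg_mul_left]
  exact avg_congr (fun a ha => by rw [hF a ha])

theorem Ex_mono {V : Finset Pt} {g g' : Conf → ℝ} (h : ∀ ω ∈ DD V, g ω ≤ g' ω) :
    Ex V g ≤ Ex V g' := avg_mono h

theorem Ex_nonneg {V : Finset Pt} {g : Conf → ℝ} (h : ∀ ω ∈ DD V, 0 ≤ g ω) : 0 ≤ Ex V g :=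
  avg_nonneg h

theorem Ex_le_const {V : Finset Pt} {g : Conf → ℝ} {c : ℝ} (hc : 0 ≤ c)
    (h : ∀ ω ∈ DD V, g ω ≤ c) : Ex V g ≤ c := avg_le_const hc h

theorem cEx_mono {V : Finset Pt} {X : Expl} {g g' : Conf → ℝ} {ω : Conf}
    (h : ∀ ω' ∈ atom V X ω, g ω' ≤ g' ω') : cEx V X g ω ≤ cEx V X g' ω := avg_mono h

theorem cEx_nonneg {V : Finset Pt} {X : Expl} {g : Conf → ℝ} {ω : Conf}
    (h : ∀ ω' ∈ atom V X ω, 0 ≤ g ω') : 0 ≤ cEx V X g ω := avg_nonneg h

theorem Ex_le_sqrt (V : Finset Pt) (g : Conf → ℝ) :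
    Ex V g ≤ Real.sqrt (Ex V (fun ω => g ω ^ 2)) := avg_le_sqrt _ g

theorem cEx_le_sqrt (V : Finset Pt) (X : Expl) (g : Conf → ℝ) (ω : Conf) :
    cEx V X g ω ≤ Real.sqrt (cEx V X (fun ω' => g ω' ^ 2) ω) := avg_le_sqrt _ g

/-! ## Revealing the outside of a set -/

/-- `outside X B` is an exploration if `X` is. -/
theorem isExpl_outside {V : Finset Pt} {X : Expl} (hX : IsExpl V X) (B : Set Pt) :
    IsExpl V (outside X B) where
  sub1 := by
    intro ω hω v hv
    obtain ⟨h1, h2, h3⟩ := hv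
    have hi : ω.1 (ω.1 v) = v := by
      have := (Finset.mem_product.1 hω).1
      exact (mem_PM.1 this).invol v
    refine ⟨(hX.sub1 ω hω v h1).1, (hX.sub1 ω hω v h1).2, h3, ?_⟩
    rw [hi]; exact h2
  sub2 := by
    intro ω hω v hv
    obtain ⟨h1, h2, h3⟩ := hv
    have hi : ω.2 (ω.2 v) = v := by
      have := (Finset.mem_product.1 hω).2
      exact (mem_PM.1 this).invol v
    refine ⟨(hX.sub2 ω hω v h1).1, (hX.sub2 ω hω v h1).2, h3, ?_⟩
    rw [hi]; exact h2
  det := by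
    intro ω hω ω' hω' hag
    have hXX : X ω' = X ω := by
      apply hX.det ω hω ω' hω'
      exact agreeOff_mono hag (fun v hv => hv.1) (fun v hv => hv.1)
    have e1 := (mem_PM.1 (Finset.mem_product.1 hω).1)
    have e2 := (mem_PM.1 (Finset.mem_product.1 hω).2)
    have e1' := (mem_PM.1 (Finset.mem_product.1 hω').1)
    have e2' := (mem_PM.1 (Finset.mem_product.1 hω').2)
    have key : ∀ (m m' : Pt → Pt) (S : Set Pt), (∀ v, m (m v) = v) → (∀ v, m' (m' v) = v) →
        (∀ v, v ∉ {v | v ∈ S ∧ v ∈ B ∧ m v ∈ B} → m' v = m v) →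
        {v | v ∈ S ∧ v ∈ B ∧ m' v ∈ B} = {v | v ∈ S ∧ v ∈ B ∧ m v ∈ B} := by
      intro m m' S hm hm' h
      ext v
      simp only [Set.mem_ofPred_eq]
      constructor
      · rintro ⟨a, b, c⟩
        refine ⟨a, b, ?_⟩
        by_contra hc
        have : m' v = m v := h v (fun hh => hc hh.2.2)
        rw [this] at c
        exact hc c
      · rintro ⟨a, b, c⟩
        refine ⟨a, b, ?_⟩
        by_contra hc
        have h1 : m' (m' v) = m (m' v) := h (m' v) (fun hh => hc hh.2.1)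
        rw [hm'] at h1
        have h2 : m v = m' v := by
          have := congrArg m h1
          rw [hm] at this
          exact this
        rw [h2] at c
        exact hc c
    unfold outside at hag ⊢
    rw [hXX]
    exact Prod.ext (key ω.1 ω'.1 (X ω).1 e1.invol e1'.invol hag.1)
      (key ω.2 ω'.2 (X ω).2 e2.invol e2'.invol hag.2)

/-- If the box `B` is unexplored by `X` at `ω`, the atom of `outside X0 B` is contained in the atom
of `X`, for any exploration `X0`. -/
theorem atom_outside_sub {V : Finset Pt} {X X0 : Expl} {B : Set Pt} {ω : Conf}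
    (h1 : B ⊆ (X ω).1) (h2 : B ⊆ (X ω).2) : atom V (outside X0 B) ω ⊆ atom V X ω := by
  intro ω' h
  obtain ⟨a, b⟩ := mem_atom.1 h
  refine mem_atom.2 ⟨a, agreeOff_mono b ?_ ?_⟩
  · intro v hv; exact h1 hv.2.1
  · intro v hv; exact h2 hv.2.1

/-- Tower property: the outside of an unexplored box refines the exploration `X`. -/
theorem cEx_outside {E : Type*} [AddCommGroup E] [Module ℝ E] {V : Finset Pt} {X X0 : Expl}
    (hX : IsExpl V X) (hX0 : IsExpl V X0) {B : Set Pt} {ω : Conf} (hω : ω ∈ DD V)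
    (h1 : B ⊆ (X ω).1) (h2 : B ⊆ (X ω).2) (g : Conf → E) :
    cEx V X (cEx V (outside X0 B) g) ω = cEx V X g ω := by
  apply cEx_cEx (isExpl_outside hX0 B)
  intro ω' hω'
  have hX' : X ω' = X ω := hX.det ω hω ω' (mem_atom.1 hω').1 (mem_atom.1 hω').2
  rw [← atom_eq hX hω hω']
  apply atom_outside_sub
  · rw [hX']; exact h1
  · rw [hX']; exact h2

end Vale.Agent.P155.J
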