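import Vale.Agent.P155.J.Iface
import Vale.Agent.P155.J.CEx

/-!
# P155, block J: deterministic facts on heights, summation by parts
-/

namespace Vale.Agent.P155.J

open Finset Skel

/-! ## A deterministic bound on the height -/

theorem mem_box {x y : Pt} {r : ℕ} :
    y ∈ box x r ↔ x.1 - r ≤ y.1 ∧ y.1 ≤ x.1 + r ∧ x.2 - r ≤ y.2 ∧ y.2 ≤ x.2 + r := by
  unfold box
  rw [Finset.mem_product, Finset.mem_Icc, Finset.mem_Icc]
  tauto

theorem mem_box_iff_dinf {x y : Pt} {r : ℕ} : y ∈ box x r ↔ dinf x y ≤ r := by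
  rw [mem_box, dinf, max_le_iff, abs_le, abs_le]
  constructor
  · rintro ⟨a, b, c, d⟩
    exact ⟨⟨by linarith, by linarith⟩, ⟨by linarith, by linarith⟩⟩
  · rintro ⟨⟨a, b⟩, ⟨c, d⟩⟩
    exact ⟨by linarith, by linarith, by linarith, by linarith⟩

theorem dn_le_iff {x y : Pt} {r : ℕ} : dn x y ≤ r ↔ y ∈ box x r := by
  rw [mem_box_iff_dinf, dn]
  have : 0 ≤ dinf x y := by unfold dinf; positivity
  omega

theorem mem_V_box {T : Temp} {R : ℕ} (hR : Fits T R) {v : Pt} (hv : v ∈ T.V) :
    v ∈ box (0, 0) (R + 2) := by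
  classical
  unfold Temp.V at hv
  split_ifs at hv with hfin
  · rw [Set.Finite.mem_toFinset] at hv
    obtain ⟨f, hf, h1, h2, h3, h4⟩ := hv.1
    have : (2 * f.1, 2 * f.2) ∈ T.faceSet := ⟨f, hf, by simp, by simp, by simp, by simp⟩
    have := hR this
    rw [Finset.mem_coe, mem_box] at this
    rw [mem_box]
    simp only at this ⊢
    push_cast at this ⊢
    refine ⟨by linarith, by linarith, by linarith, by linarith⟩
  · simp at hv

theorem PM_of_DD {V : Finset Pt} {ω : Conf} (h : ω ∈ DD V) : IsPM V ω.1 ∧ IsPM V ω.2 :=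
  ⟨mem_PM.1 (Finset.mem_product.1 h).1, mem_PM.1 (Finset.mem_product.1 h).2⟩

theorem dh_eq_zero {V : Finset Pt} {ω : Conf} (h : ω ∈ DD V) {j y : ℤ} (hv : (j, y) ∉ V) :
    dh ω j y = 0 := by
  obtain ⟨h1, h2⟩ := PM_of_DD h
  unfold dh
  rw [h1.off _ hv, h2.off _ hv]
  simp

theorem abs_dh_le (ω : Conf) (j y : ℤ) : |dh ω j y| ≤ 1 := by
  unfold dh
  split_ifs <;> simp

theorem h_eq_sum {T : Temp} {R : ℕ} (hR : Fits T R) {ω : Conf} (hω : ω ∈ DD T.V) (f : Pt) :
    h ω f = ∑ j ∈ Finset.Icc (-(R + 2 : ℤ)) (R + 2), if j ≤ f.1 then dh ω j f.2 else 0 := by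
  classical
  unfold h
  rw [finsum_mem_def]
  rw [finsum_eq_sum_of_support_subset (s := Finset.Icc (-(R + 2 : ℤ)) (R + 2))]
  · refine Finset.sum_congr rfl (fun j _ => ?_)
    simp only [Set.indicator_apply, Set.mem_ofPred_eq]
  · intro j hj
    rw [Function.mem_support] at hj
    by_contra hc
    apply hj
    by_cases hjf : j ∈ {j : ℤ | j ≤ f.1}
    · rw [Set.indicator_of_mem hjf]
      apply dh_eq_zero hω
      intro hv
      have := mem_V_box hR hv
      rw [mem_box] at this
      apply hc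
      rw [Finset.mem_coe, Finset.mem_Icc]
      simp only at this
      push_cast at this
      constructor <;> linarith [this.1, this.2.1]
    · rw [Set.indicator_of_notMem hjf]

theorem abs_h_le {T : Temp} {R : ℕ} (hR : Fits T R) {ω : Conf} (hω : ω ∈ DD T.V) (f : Pt) :
    |(h ω f : ℝ)| ≤ 2 * R + 5 := by
  have h1 : |h ω f| ≤ 2 * R + 5 := by
    rw [h_eq_sum hR hω]
    calc |∑ j ∈ Finset.Icc (-(R + 2 : ℤ)) (R + 2), if j ≤ f.1 then dh ω j f.2 else 0|
        ≤ ∑ j ∈ Finset.Icc (-(R + 2 : ℤ)) (R + 2), |if j ≤ f.1 then dh ω j f.2 else 0| :=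
          Finset.abs_sum_le_sum_abs _ _
      _ ≤ ∑ j ∈ Finset.Icc (-(R + 2 : ℤ)) (R + 2), (1 : ℤ) := by
          apply Finset.sum_le_sum
          intro j _
          split_ifs
          · exact abs_dh_le _ _ _
          · simp
      _ = 2 * R + 5 := by
          rw [Finset.sum_const, Int.card_Icc]
          simp
          omega
  exact_mod_cast h1

/-! ## Finite sums over the lattice and summation by parts -/

/-- finitely supported function -/
def FS (f : Pt → ℝ) : Prop := (Function.support f).Finite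

theorem FS.of_box {f : Pt → ℝ} {x : Pt} {r : ℕ} (h : ∀ y, y ∉ box x r → f y = 0) : FS f := by
  apply (box x r).finite_toSet.subset
  intro y hy
  by_contra hc
  exact hy (h y hc)

theorem FS.mul_right {f : Pt → ℝ} (hf : FS f) (g : Pt → ℝ) : FS (fun x => f x * g x) :=
  hf.subset (Function.support_mul_subset_left f g)

theorem FS.mul_left {f : Pt → ℝ} (hf : FS f) (g : Pt → ℝ) : FS (fun x => g x * f x) :=
  hf.subset (Function.support_mul_subset_right g f)

theorem FS.add {f g : Pt → ℝ} (hf : FS f) (hg : FS g) : FS (fun x => f x + g x) :=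
  (hf.union hg).subset (Function.support_add f g)

theorem FS.sub {f g : Pt → ℝ} (hf : FS f) (hg : FS g) : FS (fun x => f x - g x) :=
  (hf.union hg).subset (Function.support_sub f g)

theorem FS.sum {ι : Type*} {I : Finset ι} {f : ι → Pt → ℝ} (hf : ∀ i ∈ I, FS (f i)) :
    FS (fun x => ∑ i ∈ I, f i x) := by
  have : (⋃ i ∈ I, Function.support (f i)).Finite := by
    apply Set.Finite.biUnion I.finite_toSet
    intro i hi
    exact hf i hi
  refine this.subset ?_
  intro x hx
  rw [Function.mem_support] at hx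
  obtain ⟨i, hi, hne⟩ := Finset.exists_ne_zero_of_sum_ne_zero hx
  simp only [Set.mem_iUnion]
  exact ⟨i, hi, hne⟩

theorem FS.comp_equiv {f : Pt → ℝ} (hf : FS f) (e : Pt ≃ Pt) : FS (fun x => f (e x)) := by
  have h : Function.support (fun x => f (e x)) = e ⁻¹' (Function.support f) := rfl
  unfold FS
  rw [h]
  exact hf.preimage (e.injective.injOn)

/-- translation of the lattice -/
def tr (a b : ℤ) : Pt ≃ Pt where
  toFun x := (x.1 + a, x.2 + b)
  invFun x := (x.1 - a, x.2 - b)
  left_inv x := by simp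
  right_inv x := by simp

theorem lap_eq_tr (u : Pt → ℝ) (x : Pt) :
    lap u x = u (tr 1 0 x) + u (tr (-1) 0 x) + u (tr 0 1 x) + u (tr 0 (-1) x) - 4 * u x := by
  simp [lap, tr, sub_eq_add_neg]

theorem fs_lap {f : Pt → ℝ} (hf : FS f) : FS (lap f) := by
  have h : lap f = fun x => f (tr 1 0 x) + f (tr (-1) 0 x) + f (tr 0 1 x) + f (tr 0 (-1) x) - 4 * f x := by
    funext x; exact lap_eq_tr f x
  rw [h]
  exact ((((hf.comp_equiv _).add (hf.comp_equiv _)).add (hf.comp_equiv _)).add
    (hf.comp_equiv _)).sub (hf.mul_left (fun _ => 4))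

theorem finsum_tr (f : Pt → ℝ) (e : Pt ≃ Pt) : ∑ᶠ x, f (e x) = ∑ᶠ x, f x :=
  finsum_comp_equiv e

theorem finsum_shift {v : Pt → ℝ} (w : Pt → ℝ) (e : Pt ≃ Pt) :
    ∑ᶠ x, v (e x) * w x = ∑ᶠ x, v x * w (e.symm x) := by
  rw [← finsum_tr (fun x => v x * w (e.symm x)) e]
  simp

/-- Summation by parts. -/
theorem finsum_lap {v : Pt → ℝ} (hv : FS v) (w : Pt → ℝ) :
    ∑ᶠ x, lap v x * w x = ∑ᶠ x, v x * lap w x := by
  have e1 : ∀ x, lap v x * w x = v (tr 1 0 x) * w x + v (tr (-1) 0 x) * w x + v (tr 0 1 x) * w x +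
      v (tr 0 (-1) x) * w x - v x * (4 * w x) := by
    intro x; rw [lap_eq_tr]; ring
  have e2 : ∀ x, v x * lap w x = v x * w ((tr 1 0).symm x) + v x * w ((tr (-1) 0).symm x) +
      v x * w ((tr 0 1).symm x) + v x * w ((tr 0 (-1)).symm x) - v x * (4 * w x) := by
    intro x
    simp only [lap, tr, Equiv.coe_fn_symm_mk, sub_neg_eq_add, sub_zero]
    ring
  have f1 : ∀ e : Pt ≃ Pt, (Function.support (fun x => v (e x) * w x)).Finite :=
    fun e => (hv.comp_equiv e).mul_right w
  have f2 : ∀ g : Pt → ℝ, (Function.support (fun x => v x * g x)).Finite := fun g => hv.mul_right g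
  rw [finsum_congr e1, finsum_congr e2]
  rw [finsum_sub_distrib, finsum_add_distrib, finsum_add_distrib, finsum_add_distrib,
    finsum_sub_distrib, finsum_add_distrib, finsum_add_distrib, finsum_add_distrib,
    finsum_shift, finsum_shift, finsum_shift, finsum_shift]
  all_goals first
    | exact f2 _
    | exact f1 _
    | (refine ((f1 _).union (f1 _)).subset (Function.support_add _ _))
    | (refine ((f2 _).union (f2 _)).subset (Function.support_add _ _))
    | (refine ((((f1 _).union (f1 _)).subset (Function.support_add _ _)).union (f1 _)).subset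
        (Function.support_add _ _))
    | (refine ((((f2 _).union (f2 _)).subset (Function.support_add _ _)).union (f2 _)).subset
        (Function.support_add _ _))
    | (refine ((((((f1 _).union (f1 _)).subset (Function.support_add _ _)).union (f1 _)).subset
        (Function.support_add _ _)).union (f1 _)).subset (Function.support_add _ _))
    | (refine ((((((f2 _).union (f2 _)).subset (Function.support_add _ _)).union (f2 _)).subset
        (Function.support_add _ _)).union (f2 _)).subset (Function.support_add _ _))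

end Vale.Agent.P155.J
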