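import Vale.Agent.P155.J.Height

/-!
# P155, block J: decomposition of the field
-/

namespace Vale.Agent.P155.J

open Finset Skel

theorem dF_le {O : Set Pt} {x y : Pt} (hy : y ∉ O) : dF O x ≤ dn x y :=
  Nat.sInf_le ⟨y, hy, le_rfl⟩

theorem mem_of_dn_lt {O : Set Pt} {x y : Pt} (h : dn x y < dF O x) : y ∈ O := by
  by_contra hc
  exact absurd (dF_le (x := x) hc) (by omega)

theorem dn_self (x : Pt) : dn x x = 0 := by simp [dn, dinf]

theorem mem_of_dF_pos {O : Set Pt} {x : Pt} (h : 0 < dF O x) : x ∈ O :=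
  mem_of_dn_lt (by rw [dn_self]; exact h)

theorem fs_green {O : Set Pt} (hO : O.Finite) {φ u : Pt → ℝ} (hu : IsGreen O φ u) : FS u := by
  apply hO.subset
  intro x hx
  by_contra hc
  exact hx (hu.off x hc)

theorem fs_of_sub_box {O : Set Pt} {x : Pt} {R : ℕ} (h : O ⊆ (box x R : Set Pt)) : O.Finite :=
  (box x R).finite_toSet.subset h

theorem Ok_sub (T : Temp) (k : ℕ) (ω : Conf) : Ok T k ω ⊆ T.faceSet := fun _ h => h.1

/-- The Dirichlet energy is nonnegative: `0 ≤ ⟨φ, G φ⟩`. -/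
theorem pair_green_nonneg {O : Set Pt} (hO : O.Finite) {φ u : Pt → ℝ} (hu : IsGreen O φ u) :
    0 ≤ pair φ u := by
  have hfs := fs_green hO hu
  have h1 : pair φ u = ∑ᶠ x, (-1) * (lap u x * u x) := by
    unfold pair
    refine finsum_congr (fun x => ?_)
    by_cases hx : x ∈ O
    · rw [← hu.eq x hx]; ring
    · rw [hu.off x hx]; ring
  have e : ∀ x, (-1) * (lap u x * u x) =
      ((u (tr 1 0 x) - u x) ^ 2 + (u (tr 0 1 x) - u x) ^ 2) +
      ((u x * u x - u (tr 1 0 x) * u (tr 1 0 x)) + (u x * u x - u (tr 0 1 x) * u (tr 0 1 x)) +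
        (u (tr 1 0 x) * u x - u (tr (-1) 0 x) * u x) +
        (u (tr 0 1 x) * u x - u (tr 0 (-1) x) * u x)) := by
    intro x; rw [lap_eq_tr]; ring
  have f0 : ∀ g : Pt → ℝ, FS (fun x => u x * g x) := fun g => hfs.mul_right g
  have f1 : ∀ (e : Pt ≃ Pt) (g : Pt → ℝ), FS (fun x => u (e x) * g x) :=
    fun e g => (hfs.comp_equiv e).mul_right g
  have d : ∀ e : Pt ≃ Pt, FS (fun x => (u (e x) - u x) ^ 2) := by
    intro e
    have : (fun x => (u (e x) - u x) ^ 2) = fun x => (u (e x) - u x) * (u (e x) - u x) := by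
      funext x; ring
    rw [this]
    exact ((hfs.comp_equiv e).sub hfs).mul_right _
  have z1 : ∀ e : Pt ≃ Pt, ∑ᶠ x, (u x * u x - u (e x) * u (e x)) = 0 := by
    intro e
    rw [finsum_sub_distrib (f0 _) (f1 e _), finsum_tr (fun x => u x * u x) e, sub_self]
  have z2 : ∀ e e' : Pt ≃ Pt, e.symm = e' → ∑ᶠ x, (u (e x) * u x - u (e' x) * u x) = 0 := by
    intro e e' he
    rw [finsum_sub_distrib (f1 e _) (f1 e' _), finsum_shift u e, he, sub_eq_zero]
    exact finsum_congr (fun x => mul_comm _ _)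
  have s1 : (tr 1 0).symm = tr (-1) 0 := by
    ext x <;> simp [tr, sub_eq_add_neg]
  have s2 : (tr 0 1).symm = tr 0 (-1) := by
    ext x <;> simp [tr, sub_eq_add_neg]
  have g1 : ∀ e : Pt ≃ Pt, FS (fun x => u x * u x - u (e x) * u (e x)) :=
    fun e => (f0 _).sub (f1 e _)
  have g2 : ∀ e e' : Pt ≃ Pt, FS (fun x => u (e x) * u x - u (e' x) * u x) :=
    fun e e' => (f1 e _).sub (f1 e' _)
  rw [h1, finsum_congr e, finsum_add_distrib ((d _).add (d _))
    ((((g1 _).add (g1 _)).add (g2 _ _)).add (g2 _ _)),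
    finsum_add_distrib (((g1 _).add (g1 _)).add (g2 _ _)) (g2 _ _),
    finsum_add_distrib ((g1 _).add (g1 _)) (g2 _ _),
    finsum_add_distrib (g1 _) (g1 _), z1, z1, z2 _ _ s1, z2 _ _ s2]
  simp only [add_zero]
  exact finsum_nonneg (fun x => by positivity)

/-- The field is the layer field minus the height tested against `Δ(χ u)`. -/
theorem hkf_decomp (hk1 : L_hk) (hk2 : L_const) {T : Temp} {k : ℕ} {ω ω' : Conf}
    (hω : ω ∈ DD T.V) (hω' : ω' ∈ DD T.V) (hag : AgreeOff (Fk T.V k ω) ω ω')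
    {φ u χ : Pt → ℝ} {s : ℕ} {C : ℝ} (hφ : FS φ) (hu : IsGreen (Ok T k ω) φ u)
    (hO : (Ok T k ω).Finite) (hχ : IsCut (Ok T k ω) s C χ) (hs : 1 ≤ s) :
    hkf k ω' φ = hkf k ω' (fL (Ok T k ω) φ χ u) - hf ω' (lap (fun x => χ x * u x)) := by
  classical
  obtain ⟨e1, e2, e3⟩ := hk1 T k ω hω ω' hω' hag
  obtain ⟨-, -, e4⟩ := hk1 T k ω' hω' ω' hω' (agreeOff_refl _ _)
  rw [e1] at e4
  set O := Ok T k ω with hOdef
  set v : Pt → ℝ := fun x => χ x * u x with hv
  have hfs : FS v := (fs_green hO hu).mul_left χ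
  have hl : FS (lap v) := fs_lap hfs
  -- `h^{(k)}` is harmonic on the support of `v`
  have hharm : ∀ x, v x * lap (fun y => (hk k ω' y : ℝ)) x = 0 := by
    intro x
    by_cases hx : χ x = 0
    · simp [hv, hx]
    · have hd : s < dF O x := by
        by_contra hc
        exact hx (hχ.zero x (not_lt.1 hc))
      have hnb : ∀ y, dn x y ≤ 1 → y ∈ O := fun y hy =>
        mem_of_dn_lt (x := x) (y := y) (by omega)
      have hxO : x ∈ O := hnb x (by rw [dn_self]; omega)
      have hc : ∀ y, Adj x y → dn x y ≤ 1 → hk k ω' y = hk k ω' x := by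
        intro y hy hy1
        have h1 : x ∈ Ok T k ω' := by rw [e1]; exact hxO
        have h2 : y ∈ Ok T k ω' := by rw [e1]; exact hnb y hy1
        exact (hk2 T k ω' hω' x y hy h1 h2).symm
      have c1 : hk k ω' (x.1 + 1, x.2) = hk k ω' x := hc _ (by simp [Adj]) (by simp [dn, dinf])
      have c2 : hk k ω' (x.1 - 1, x.2) = hk k ω' x := hc _ (by simp [Adj]) (by simp [dn, dinf])
      have c3 : hk k ω' (x.1, x.2 + 1) = hk k ω' x := hc _ (by simp [Adj]) (by simp [dn, dinf])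
      have c4 : hk k ω' (x.1, x.2 - 1) = hk k ω' x := hc _ (by simp [Adj]) (by simp [dn, dinf])
      have : lap (fun y => (hk k ω' y : ℝ)) x = 0 := by
        unfold lap
        beta_reduce
        rw [c1, c2, c3, c4]; ring
      rw [this, mul_zero]
  have hzero : ∑ᶠ x, lap v x * (hk k ω' x : ℝ) = 0 := by
    rw [finsum_lap hfs, finsum_congr hharm, finsum_zero]
  have hterm : ∀ x, fL O φ χ u x * ((h ω' x : ℝ) - hk k ω' x) =
      φ x * ((h ω' x : ℝ) - hk k ω' x) + (lap v x * (h ω' x : ℝ) - lap v x * (hk k ω' x : ℝ)) := by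
    intro x
    unfold fL
    by_cases hx : x ∈ O
    · rw [if_pos hx]; ring
    · rw [if_neg hx, e4 x hx]; ring
  unfold hkf hf
  rw [finsum_congr hterm, finsum_add_distrib (hφ.mul_right _)
    ((hl.mul_right _).sub (hl.mul_right _)), finsum_sub_distrib (hl.mul_right _) (hl.mul_right _),
    hzero]
  ring

/-- Splitting off the explored part. -/
theorem hkf_split {ω' : Conf} {k : ℕ} {φ : Pt → ℝ} (hφ : FS φ) :
    hkf k ω' φ = hf ω' φ - ∑ᶠ x, φ x * (hk k ω' x : ℝ) := by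
  unfold hkf hf
  rw [← finsum_sub_distrib (hφ.mul_right _) (hφ.mul_right _)]
  exact finsum_congr (fun x => by ring)

theorem hf_sum {ι : Type*} {I : Finset ι} {f : ι → Pt → ℝ} (hf' : ∀ i ∈ I, FS (f i)) (ω : Conf) :
    hf ω (fun x => ∑ i ∈ I, f i x) = ∑ i ∈ I, hf ω (f i) := by
  unfold hf
  rw [← finsum_sum_comm I (fun x i => f i x * (h ω x : ℝ))]
  · exact finsum_congr (fun x => by rw [Finset.sum_mul])
  · intro i hi
    exact (hf' i hi).mul_right _

theorem lap_sum {ι : Type*} {I : Finset ι} (f : ι → Pt → ℝ) (x : Pt) :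
    lap (fun x => ∑ i ∈ I, f i x) x = ∑ i ∈ I, lap (f i) x := by
  unfold lap
  rw [Finset.sum_sub_distrib, Finset.sum_add_distrib, Finset.sum_add_distrib,
    Finset.sum_add_distrib, Finset.mul_sum]

theorem pair_sum {ι : Type*} {I : Finset ι} {f : ι → Pt → ℝ} (hf' : ∀ i ∈ I, FS (f i))
    (φ : Pt → ℝ) : pair (fun x => ∑ i ∈ I, f i x) φ = ∑ i ∈ I, pair (f i) φ := by
  unfold pair
  rw [← finsum_sum_comm I (fun x i => f i x * φ x)]
  · exact finsum_congr (fun x => by rw [Finset.sum_mul])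
  · intro i hi
    exact (hf' i hi).mul_right _

/-- a finsum with terms supported in a box is bounded by the number of its points times the sup -/
theorem abs_finsum_le {f : Pt → ℝ} {x : Pt} {r : ℕ} {B : ℝ} (hB : ∀ y, |f y| ≤ B)
    (h0 : ∀ y, y ∉ box x r → f y = 0) : |∑ᶠ y, f y| ≤ (2 * r + 1) ^ 2 * B := by
  rw [finsum_eq_sum_of_support_subset (s := box x r)]
  · calc |∑ y ∈ box x r, f y| ≤ ∑ y ∈ box x r, |f y| := Finset.abs_sum_le_sum_abs _ _
      _ ≤ ∑ y ∈ box x r, B := Finset.sum_le_sum (fun y _ => hB y)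
      _ = (2 * r + 1) ^ 2 * B := by
        rw [Finset.sum_const, nsmul_eq_mul]
        congr 1
        unfold box
        rw [Finset.card_product, Int.card_Icc, Int.card_Icc]
        have h1 : (x.1 + ↑r + 1 - (x.1 - ↑r)).toNat = 2 * r + 1 := by omega
        have h2 : (x.2 + ↑r + 1 - (x.2 - ↑r)).toNat = 2 * r + 1 := by omega
        rw [h1, h2]
        push_cast
        ring
  · intro y hy
    by_contra hc
    exact hy (h0 y hc)

theorem IsBump.fs {x : Pt} {t : ℕ} {H : ℝ} {ψ : Pt → ℝ} (h : IsBump x t H ψ) : FS ψ :=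
  FS.of_box h.1

theorem IsBump.abs_le {x : Pt} {t : ℕ} {H : ℝ} {ψ : Pt → ℝ} (h : IsBump x t H ψ) (y : Pt) :
    |ψ y| ≤ H := by
  have := h.2 0 0 (by norm_num) y
  simpa using this

theorem IsBump.nonneg {x : Pt} {t : ℕ} {H : ℝ} {ψ : Pt → ℝ} (h : IsBump x t H ψ) : 0 ≤ H :=
  (abs_nonneg _).trans (IsBump.abs_le h x)

/-- trivial bound on the height tested against `Δψ` -/
theorem abs_hf_lap_le {T : Temp} {R : ℕ} (hR : Fits T R) {ω : Conf} (hω : ω ∈ DD T.V) {x : Pt}
    {t : ℕ} {H : ℝ} {ψ : Pt → ℝ} (h : IsBump x t H ψ) :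
    |hf ω (lap ψ)| ≤ (2 * t + 3) ^ 2 * (8 * H * (2 * R + 5)) := by
  have hH := IsBump.nonneg h
  have hb : ∀ y, |lap ψ y * (Vale.Agent.P155.h ω y : ℝ)| ≤ 8 * H * (2 * R + 5) := by
    intro y
    rw [abs_mul]
    apply mul_le_mul _ (abs_h_le hR hω y) (abs_nonneg _) (by positivity)
    unfold lap
    have a1 := IsBump.abs_le h (y.1 + 1, y.2)
    have a2 := IsBump.abs_le h (y.1 - 1, y.2)
    have a3 := IsBump.abs_le h (y.1, y.2 + 1)
    have a4 := IsBump.abs_le h (y.1, y.2 - 1)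
    have a5 := IsBump.abs_le h y
    rw [abs_le] at *
    constructor <;> linarith [a1.1, a1.2, a2.1, a2.2, a3.1, a3.2, a4.1, a4.2, a5.1, a5.2]
  have h0 : ∀ y, y ∉ box x (t + 1) → lap ψ y * (Vale.Agent.P155.h ω y : ℝ) = 0 := by
    intro y hy
    have hz : ∀ a b : ℤ, |a| + |b| ≤ 1 → ψ (y.1 + a, y.2 + b) = 0 := by
      intro a b hab
      apply h.1
      intro hc
      apply hy
      rw [mem_box] at hc ⊢
      simp only at hc
      have ha := abs_le.1 (show |a| ≤ 1 by linarith [abs_nonneg b])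
      have hb := abs_le.1 (show |b| ≤ 1 by linarith [abs_nonneg a])
      push_cast
      refine ⟨by linarith [hc.1], by linarith [hc.2.1], by linarith [hc.2.2.1], by linarith [hc.2.2.2]⟩
    have z0 := hz 0 0 (by simp)
    have z1 := hz 1 0 (by simp)
    have z2 := hz (-1) 0 (by simp)
    have z3 := hz 0 1 (by simp)
    have z4 := hz 0 (-1) (by simp)
    simp only [add_zero, ← sub_eq_add_neg] at z0 z1 z2 z3 z4
    unfold lap
    rw [z1, z2, z3, z4, z0]
    simp
  have := abs_finsum_le hb h0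
  unfold hf
  refine this.trans (le_of_eq ?_)
  push_cast
  ring

end Vale.Agent.P155.J
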