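import Mathlib

/-!
# P155, block J: exponents
-/

namespace Vale.Agent.P155.J

open Filter

/-- The value of one box of radius `m` in the sum of the Schwinger–Dyson errors. -/
noncomputable def eSD (κ c R m : ℝ) : ℝ :=
  R ^ κ * (m ^ (-1 + κ) + (m / R) ^ (2 : ℕ) * m ^ (-c) + (m / R) ^ (4 : ℕ))

theorem eSD_nonneg {κ c R m : ℝ} (hR : 0 ≤ R) (hm : 0 ≤ m) : 0 ≤ eSD κ c R m := by
  unfold eSD; positivity

/-- bound for boxes that are not at the top scale -/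
theorem num_A {κ c a R m : ℝ} (hκ : 0 < κ) (hκa : κ ≤ a / 40) (hκ2 : κ ≤ 1 / 200)
    (ha : a ≤ 1) (hc : 0 < c) (hc1 : c ≤ 1) (hR : 1 ≤ R) (hm1 : R ^ (a / 2) ≤ m)
    (hm2 : m ≤ R ^ (9 / 10 : ℝ)) :
    m ^ (6 * κ) * eSD κ c R m ≤ R ^ (-(a / 4)) + 2 * R ^ (-(1 / 10 : ℝ)) := by
  have hR0 : 0 < R := by linarith
  have ha0 : 0 < a := by linarith
  have hm : 1 ≤ m := (Real.one_le_rpow hR (by linarith)).trans hm1
  have hm0 : 0 < m := by linarith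
  have t1 : m ^ (6 * κ) * (R ^ κ * m ^ (-1 + κ)) ≤ R ^ (-(a / 4)) := by
    have e1 : m ^ (6 * κ) * (R ^ κ * m ^ (-1 + κ)) = R ^ κ * m ^ (-1 + 7 * κ) := by
      rw [mul_comm, mul_assoc, ← Real.rpow_add hm0]; congr 2; ring
    have e2 : m ^ (-1 + 7 * κ) ≤ (R ^ (a / 2)) ^ (-1 + 7 * κ) :=
      Real.rpow_le_rpow_of_nonpos (by positivity) hm1 (by linarith)
    rw [← Real.rpow_mul hR0.le] at e2
    rw [e1]
    calc R ^ κ * m ^ (-1 + 7 * κ) ≤ R ^ κ * R ^ (a / 2 * (-1 + 7 * κ)) := by gcongr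
      _ = R ^ (κ + a / 2 * (-1 + 7 * κ)) := (Real.rpow_add hR0 _ _).symm
      _ ≤ R ^ (-(a / 4)) := by
        apply Real.rpow_le_rpow_of_exponent_le hR
        nlinarith
  have t2 : m ^ (6 * κ) * (R ^ κ * ((m / R) ^ (2 : ℕ) * m ^ (-c))) ≤ R ^ (-(1 / 10 : ℝ)) := by
    have e1 : m ^ (6 * κ) * (R ^ κ * ((m / R) ^ (2 : ℕ) * m ^ (-c))) =
        R ^ (κ - 2) * m ^ (6 * κ + 2 - c) := by
      rw [div_pow, ← Real.rpow_natCast m 2, ← Real.rpow_natCast R 2, div_eq_mul_inv,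
        ← Real.rpow_neg hR0.le]
      calc m ^ (6 * κ) * (R ^ κ * (m ^ ((2 : ℕ) : ℝ) * R ^ (-((2 : ℕ) : ℝ)) * m ^ (-c)))
          = (R ^ κ * R ^ (-((2 : ℕ) : ℝ))) * (m ^ (6 * κ) * m ^ ((2 : ℕ) : ℝ) * m ^ (-c)) := by ring
        _ = _ := by
          rw [← Real.rpow_add hR0, ← Real.rpow_add hm0, ← Real.rpow_add hm0]
          congr 2
    have e2 : m ^ (6 * κ + 2 - c) ≤ (R ^ (9 / 10 : ℝ)) ^ (6 * κ + 2 - c) :=
      Real.rpow_le_rpow hm0.le hm2 (by linarith)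
    rw [← Real.rpow_mul hR0.le] at e2
    rw [e1]
    calc R ^ (κ - 2) * m ^ (6 * κ + 2 - c) ≤ R ^ (κ - 2) * R ^ (9 / 10 * (6 * κ + 2 - c)) := by
          gcongr
      _ = R ^ (κ - 2 + 9 / 10 * (6 * κ + 2 - c)) := (Real.rpow_add hR0 _ _).symm
      _ ≤ R ^ (-(1 / 10 : ℝ)) := by
        apply Real.rpow_le_rpow_of_exponent_le hR
        linarith
  have t3 : m ^ (6 * κ) * (R ^ κ * (m / R) ^ (4 : ℕ)) ≤ R ^ (-(1 / 10 : ℝ)) := by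
    have e1 : m ^ (6 * κ) * (R ^ κ * (m / R) ^ (4 : ℕ)) = R ^ (κ - 4) * m ^ (6 * κ + 4) := by
      rw [div_pow, ← Real.rpow_natCast m 4, ← Real.rpow_natCast R 4, div_eq_mul_inv,
        ← Real.rpow_neg hR0.le]
      calc m ^ (6 * κ) * (R ^ κ * (m ^ ((4 : ℕ) : ℝ) * R ^ (-((4 : ℕ) : ℝ))))
          = (R ^ κ * R ^ (-((4 : ℕ) : ℝ))) * (m ^ (6 * κ) * m ^ ((4 : ℕ) : ℝ)) := by ring
        _ = _ := by
          rw [← Real.rpow_add hR0, ← Real.rpow_add hm0]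
          congr 2
    have e2 : m ^ (6 * κ + 4) ≤ (R ^ (9 / 10 : ℝ)) ^ (6 * κ + 4) :=
      Real.rpow_le_rpow hm0.le hm2 (by linarith)
    rw [← Real.rpow_mul hR0.le] at e2
    rw [e1]
    calc R ^ (κ - 4) * m ^ (6 * κ + 4) ≤ R ^ (κ - 4) * R ^ (9 / 10 * (6 * κ + 4)) := by gcongr
      _ = R ^ (κ - 4 + 9 / 10 * (6 * κ + 4)) := (Real.rpow_add hR0 _ _).symm
      _ ≤ R ^ (-(1 / 10 : ℝ)) := by
        apply Real.rpow_le_rpow_of_exponent_le hR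
        linarith
  unfold eSD
  calc m ^ (6 * κ) * (R ^ κ * (m ^ (-1 + κ) + (m / R) ^ (2 : ℕ) * m ^ (-c) + (m / R) ^ (4 : ℕ)))
      = m ^ (6 * κ) * (R ^ κ * m ^ (-1 + κ)) + m ^ (6 * κ) * (R ^ κ * ((m / R) ^ (2 : ℕ) * m ^ (-c)))
        + m ^ (6 * κ) * (R ^ κ * (m / R) ^ (4 : ℕ)) := by ring
    _ ≤ R ^ (-(a / 4)) + R ^ (-(1 / 10 : ℝ)) + R ^ (-(1 / 10 : ℝ)) := by gcongr
    _ = _ := by ring

/-- bound for boxes at the top scale -/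
theorem num_B {κ c R m : ℝ} (hκ : 0 < κ) (hκc : κ ≤ c / 40) (hκ2 : κ ≤ 1 / 200)
    (hc : 0 < c) (hc1 : c ≤ 1) (hR : 1 ≤ R) (hm1 : R ^ (9 / 10 : ℝ) ≤ 4 * m)
    (hm2 : m ≤ R ^ (9 / 10 : ℝ)) :
    R ^ (2 : ℕ) * m ^ (-2 + 6 * κ) * eSD κ c R m ≤
      64 * R ^ (-(1 / 10 : ℝ)) + 4 * R ^ (-(c / 2)) + R ^ (-(1 / 10 : ℝ)) := by
  have hR0 : 0 < R := by linarith
  have hq : 0 < R ^ (9 / 10 : ℝ) / 4 := by positivity
  have hm0 : 0 < m := by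
    have : 0 < R ^ (9 / 10 : ℝ) := by positivity
    linarith
  have hm1' : R ^ (9 / 10 : ℝ) / 4 ≤ m := by linarith
  have neg : ∀ e : ℝ, e ≤ 0 → -3 ≤ e → m ^ e ≤ 64 * R ^ (9 / 10 * e) := by
    intro e he he3
    have h1 : m ^ e ≤ (R ^ (9 / 10 : ℝ) / 4) ^ e :=
      Real.rpow_le_rpow_of_nonpos hq hm1' he
    have h2 : (R ^ (9 / 10 : ℝ) / 4) ^ e = 4 ^ (-e) * R ^ (9 / 10 * e) := by
      rw [Real.div_rpow (by positivity) (by norm_num), ← Real.rpow_mul hR0.le,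
        Real.rpow_neg (by norm_num)]
      field_simp
    have h3 : (4 : ℝ) ^ (-e) ≤ 64 := by
      calc (4 : ℝ) ^ (-e) ≤ (4 : ℝ) ^ (3 : ℝ) :=
            Real.rpow_le_rpow_of_exponent_le (by norm_num) (by linarith)
        _ = 64 := by norm_num
    rw [h2] at h1
    exact h1.trans (mul_le_mul_of_nonneg_right h3 (by positivity))
  have neg' : ∀ e : ℝ, e ≤ 0 → -1 ≤ e → m ^ e ≤ 4 * R ^ (9 / 10 * e) := by
    intro e he he3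
    have h1 : m ^ e ≤ (R ^ (9 / 10 : ℝ) / 4) ^ e :=
      Real.rpow_le_rpow_of_nonpos hq hm1' he
    have h2 : (R ^ (9 / 10 : ℝ) / 4) ^ e = 4 ^ (-e) * R ^ (9 / 10 * e) := by
      rw [Real.div_rpow (by positivity) (by norm_num), ← Real.rpow_mul hR0.le,
        Real.rpow_neg (by norm_num)]
      field_simp
    have h3 : (4 : ℝ) ^ (-e) ≤ 4 := by
      calc (4 : ℝ) ^ (-e) ≤ (4 : ℝ) ^ (1 : ℝ) :=
            Real.rpow_le_rpow_of_exponent_le (by norm_num) (by linarith)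
        _ = 4 := by norm_num
    rw [h2] at h1
    exact h1.trans (mul_le_mul_of_nonneg_right h3 (by positivity))
  have hR2 : R ^ (2 : ℕ) = R ^ (2 : ℝ) := by rw [← Real.rpow_natCast]; norm_num
  have t1 : R ^ (2 : ℕ) * m ^ (-2 + 6 * κ) * (R ^ κ * m ^ (-1 + κ)) ≤ 64 * R ^ (-(1 / 10 : ℝ)) := by
    have e1 : R ^ (2 : ℕ) * m ^ (-2 + 6 * κ) * (R ^ κ * m ^ (-1 + κ)) =
        R ^ (2 + κ) * m ^ (-3 + 7 * κ) := by
      rw [hR2]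
      calc R ^ (2 : ℝ) * m ^ (-2 + 6 * κ) * (R ^ κ * m ^ (-1 + κ))
          = (R ^ (2 : ℝ) * R ^ κ) * (m ^ (-2 + 6 * κ) * m ^ (-1 + κ)) := by ring
        _ = _ := by
          rw [← Real.rpow_add hR0, ← Real.rpow_add hm0]
          congr 2; ring
    rw [e1]
    calc R ^ (2 + κ) * m ^ (-3 + 7 * κ) ≤ R ^ (2 + κ) * (64 * R ^ (9 / 10 * (-3 + 7 * κ))) := by
          gcongr
          exact neg _ (by linarith) (by linarith)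
      _ = 64 * (R ^ (2 + κ) * R ^ (9 / 10 * (-3 + 7 * κ))) := by ring
      _ = 64 * R ^ (2 + κ + 9 / 10 * (-3 + 7 * κ)) := by rw [← Real.rpow_add hR0]
      _ ≤ 64 * R ^ (-(1 / 10 : ℝ)) := by
        gcongr 64 * ?_
        apply Real.rpow_le_rpow_of_exponent_le hR
        linarith
  have t2 : R ^ (2 : ℕ) * m ^ (-2 + 6 * κ) * (R ^ κ * ((m / R) ^ (2 : ℕ) * m ^ (-c))) ≤
      4 * R ^ (-(c / 2)) := by
    have e1 : R ^ (2 : ℕ) * m ^ (-2 + 6 * κ) * (R ^ κ * ((m / R) ^ (2 : ℕ) * m ^ (-c))) =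
        R ^ κ * m ^ (6 * κ - c) := by
      rw [div_pow]
      have h1 : m ^ (2 : ℕ) * m ^ (-2 + 6 * κ) * m ^ (-c) = m ^ (6 * κ - c) := by
        rw [← Real.rpow_natCast m 2, ← Real.rpow_add hm0, ← Real.rpow_add hm0]
        congr 1; push_cast; ring
      rw [← h1]
      field_simp
    rw [e1]
    calc R ^ κ * m ^ (6 * κ - c) ≤ R ^ κ * (4 * R ^ (9 / 10 * (6 * κ - c))) := by
          gcongr
          exact neg' _ (by linarith) (by linarith)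
      _ = 4 * (R ^ κ * R ^ (9 / 10 * (6 * κ - c))) := by ring
      _ = 4 * R ^ (κ + 9 / 10 * (6 * κ - c)) := by rw [← Real.rpow_add hR0]
      _ ≤ 4 * R ^ (-(c / 2)) := by
        gcongr 4 * ?_
        apply Real.rpow_le_rpow_of_exponent_le hR
        linarith
  have t3 : R ^ (2 : ℕ) * m ^ (-2 + 6 * κ) * (R ^ κ * (m / R) ^ (4 : ℕ)) ≤
      R ^ (-(1 / 10 : ℝ)) := by
    have e1 : R ^ (2 : ℕ) * m ^ (-2 + 6 * κ) * (R ^ κ * (m / R) ^ (4 : ℕ)) =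
        R ^ (κ - 2) * m ^ (2 + 6 * κ) := by
      rw [div_pow]
      have h1 : m ^ (-2 + 6 * κ) * m ^ (4 : ℕ) = m ^ (2 + 6 * κ) := by
        rw [← Real.rpow_natCast m 4, ← Real.rpow_add hm0]
        congr 1; push_cast; ring
      have h2 : R ^ (κ - 2) = R ^ κ / R ^ (2 : ℕ) := by
        rw [Real.rpow_sub hR0, hR2]
      rw [← h1, h2]
      field_simp
    have e2 : m ^ (2 + 6 * κ) ≤ (R ^ (9 / 10 : ℝ)) ^ (2 + 6 * κ) :=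
      Real.rpow_le_rpow hm0.le hm2 (by linarith)
    rw [← Real.rpow_mul hR0.le] at e2
    rw [e1]
    calc R ^ (κ - 2) * m ^ (2 + 6 * κ) ≤ R ^ (κ - 2) * R ^ (9 / 10 * (2 + 6 * κ)) := by gcongr
      _ = R ^ (κ - 2 + 9 / 10 * (2 + 6 * κ)) := (Real.rpow_add hR0 _ _).symm
      _ ≤ R ^ (-(1 / 10 : ℝ)) := by
        apply Real.rpow_le_rpow_of_exponent_le hR
        linarith
  unfold eSD
  calc R ^ (2 : ℕ) * m ^ (-2 + 6 * κ) *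
        (R ^ κ * (m ^ (-1 + κ) + (m / R) ^ (2 : ℕ) * m ^ (-c) + (m / R) ^ (4 : ℕ)))
      = R ^ (2 : ℕ) * m ^ (-2 + 6 * κ) * (R ^ κ * m ^ (-1 + κ)) +
        R ^ (2 : ℕ) * m ^ (-2 + 6 * κ) * (R ^ κ * ((m / R) ^ (2 : ℕ) * m ^ (-c))) +
        R ^ (2 : ℕ) * m ^ (-2 + 6 * κ) * (R ^ κ * (m / R) ^ (4 : ℕ)) := by ring
    _ ≤ 64 * R ^ (-(1 / 10 : ℝ)) + 4 * R ^ (-(c / 2)) + R ^ (-(1 / 10 : ℝ)) := by gcongr

/-- The parameters for large `R`. -/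
theorem params {κ a : ℝ} (hκ : 0 < κ) (hκa : κ ≤ a / 40) (hκ2 : κ ≤ 1 / 200) (ha : a ≤ 1 / 2) :
    ∃ R0 : ℕ, 1 ≤ R0 ∧ ∀ R : ℕ, R0 ≤ R →
      64 ≤ ⌈(R : ℝ) ^ a⌉₊ ∧ ⌈(R : ℝ) ^ a⌉₊ ≤ ⌊(R : ℝ) ^ (9 / 10 : ℝ)⌋₊ ∧
      ⌊(R : ℝ) ^ (9 / 10 : ℝ)⌋₊ ≤ R ∧ (R : ℝ) ^ (9 / 10 : ℝ) ≤ 2 * ⌊(R : ℝ) ^ (9 / 10 : ℝ)⌋₊ ∧
      ∀ n : ℕ, ⌈(R : ℝ) ^ a⌉₊ ≤ 16 * n → (R : ℝ) ^ (a / 2) ≤ n ∧
        1 ≤ ⌊(n : ℝ) ^ (1 - 3 * κ)⌋₊ ∧ 16 * ⌊(n : ℝ) ^ (1 - 3 * κ)⌋₊ ≤ n ∧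
        (n : ℝ) ^ (1 - 3 * κ) ≤ 2 * ⌊(n : ℝ) ^ (1 - 3 * κ)⌋₊ := by
  have ha0 : 0 < a := by linarith
  -- large `R`
  have h1 : ∀ᶠ R : ℕ in atTop, 64 ≤ (R : ℝ) ^ a :=
    ((tendsto_rpow_atTop ha0).comp tendsto_natCast_atTop_atTop).eventually_ge_atTop 64
  have h2 : ∀ᶠ R : ℕ in atTop, 16 ≤ (R : ℝ) ^ (a / 2) :=
    ((tendsto_rpow_atTop (by linarith)).comp tendsto_natCast_atTop_atTop).eventually_ge_atTop 16
  have h3 : ∀ᶠ R : ℕ in atTop, (16 : ℝ) ≤ (R : ℝ) ^ (a / 2 * (3 * κ)) :=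
    ((tendsto_rpow_atTop (by positivity)).comp tendsto_natCast_atTop_atTop).eventually_ge_atTop 16
  have h4 : ∀ᶠ R : ℕ in atTop, (4 : ℝ) ≤ (R : ℝ) ^ (1 / 10 : ℝ) :=
    ((tendsto_rpow_atTop (by norm_num)).comp tendsto_natCast_atTop_atTop).eventually_ge_atTop 4
  obtain ⟨R0, hR0⟩ := eventually_atTop.1 (h1.and (h2.and (h3.and h4)))
  refine ⟨max R0 1, le_max_right _ _, fun R hR => ?_⟩
  obtain ⟨g1, g2, g3, g4⟩ := hR0 R ((le_max_left _ _).trans hR)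
  have hR1 : (1 : ℝ) ≤ R := by exact_mod_cast (le_max_right _ _).trans hR
  have hRp : (0 : ℝ) < R := by linarith
  have h9 : (R : ℝ) ^ (9 / 10 : ℝ) = (R : ℝ) ^ (8 / 10 : ℝ) * (R : ℝ) ^ (1 / 10 : ℝ) := by
    rw [← Real.rpow_add hRp]; norm_num
  have h8 : (R : ℝ) ^ a ≤ (R : ℝ) ^ (8 / 10 : ℝ) :=
    Real.rpow_le_rpow_of_exponent_le hR1 (by linarith)
  have h90 : 4 * (R : ℝ) ^ a ≤ (R : ℝ) ^ (9 / 10 : ℝ) := by
    rw [h9]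
    have : 0 ≤ (R : ℝ) ^ (8 / 10 : ℝ) := by positivity
    nlinarith
  have hfl : (R : ℝ) ^ (9 / 10 : ℝ) - 1 < ⌊(R : ℝ) ^ (9 / 10 : ℝ)⌋₊ := Nat.sub_one_lt_floor _
  refine ⟨?_, ?_, ?_, ?_, ?_⟩
  · have : (64 : ℝ) ≤ ⌈(R : ℝ) ^ a⌉₊ := g1.trans (Nat.le_ceil _)
    exact_mod_cast this
  · have hc := Nat.ceil_lt_add_one (show 0 ≤ (R : ℝ) ^ a by positivity)
    have : (⌈(R : ℝ) ^ a⌉₊ : ℝ) ≤ ⌊(R : ℝ) ^ (9 / 10 : ℝ)⌋₊ := by linarith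
    exact_mod_cast this
  · apply Nat.floor_le_of_le
    calc (R : ℝ) ^ (9 / 10 : ℝ) ≤ (R : ℝ) ^ (1 : ℝ) :=
          Real.rpow_le_rpow_of_exponent_le hR1 (by norm_num)
      _ = R := Real.rpow_one _
  · linarith
  · intro n hn
    have hn1 : (R : ℝ) ^ a ≤ 16 * n := by
      have := (Nat.le_ceil ((R : ℝ) ^ a)).trans (show ((⌈(R : ℝ) ^ a⌉₊ : ℕ) : ℝ) ≤ ((16 * n : ℕ) : ℝ) by
        exact_mod_cast hn)
      push_cast at this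
      exact this
    have haa : (R : ℝ) ^ a = (R : ℝ) ^ (a / 2) * (R : ℝ) ^ (a / 2) := by
      rw [← Real.rpow_add hRp]; congr 1; ring
    have k1 : (R : ℝ) ^ (a / 2) ≤ n := by
      have : 0 ≤ (R : ℝ) ^ (a / 2) := by positivity
      nlinarith
    have hn16 : (16 : ℝ) ≤ n := g2.trans k1
    have hn0 : (0 : ℝ) < n := by linarith
    have k2 : (n : ℝ) ^ (1 - 3 * κ) * 16 ≤ n := by
      have e1 : (16 : ℝ) ≤ (n : ℝ) ^ (3 * κ) := by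
        calc (16 : ℝ) ≤ (R : ℝ) ^ (a / 2 * (3 * κ)) := g3
          _ = ((R : ℝ) ^ (a / 2)) ^ (3 * κ) := by rw [← Real.rpow_mul hRp.le]
          _ ≤ (n : ℝ) ^ (3 * κ) := Real.rpow_le_rpow (by positivity) k1 (by positivity)
      calc (n : ℝ) ^ (1 - 3 * κ) * 16 ≤ (n : ℝ) ^ (1 - 3 * κ) * (n : ℝ) ^ (3 * κ) := by gcongr
        _ = (n : ℝ) ^ (1 : ℝ) := by rw [← Real.rpow_add hn0]; congr 1; ring
        _ = n := Real.rpow_one _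
    have k3 : (2 : ℝ) ≤ (n : ℝ) ^ (1 - 3 * κ) := by
      calc (2 : ℝ) ≤ (16 : ℝ) ^ (1 / 2 : ℝ) := by
            rw [show (16 : ℝ) = 4 ^ (2 : ℝ) by norm_num, ← Real.rpow_mul (by norm_num)]
            norm_num
        _ ≤ (16 : ℝ) ^ (1 - 3 * κ) :=
            Real.rpow_le_rpow_of_exponent_le (by norm_num) (by linarith)
        _ ≤ (n : ℝ) ^ (1 - 3 * κ) := Real.rpow_le_rpow (by norm_num) hn16 (by linarith)
    have hfl2 : (n : ℝ) ^ (1 - 3 * κ) - 1 < ⌊(n : ℝ) ^ (1 - 3 * κ)⌋₊ := Nat.sub_one_lt_floor _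
    have hfl3 : (⌊(n : ℝ) ^ (1 - 3 * κ)⌋₊ : ℝ) ≤ (n : ℝ) ^ (1 - 3 * κ) :=
      Nat.floor_le (by positivity)
    refine ⟨k1, ?_, ?_, by linarith⟩
    · have : (1 : ℝ) < ⌊(n : ℝ) ^ (1 - 3 * κ)⌋₊ + 1 := by linarith
      have h0 : (0 : ℝ) < ⌊(n : ℝ) ^ (1 - 3 * κ)⌋₊ := by linarith
      exact_mod_cast h0
    · have : (16 : ℝ) * ⌊(n : ℝ) ^ (1 - 3 * κ)⌋₊ ≤ n := by linarith
      exact_mod_cast this

end Vale.Agent.P155.J
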