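import Vale.Agent.P155.J.Key
import Vale.Agent.P155.J.Numeric

/-!
# P155, block J: summing the Schwinger–Dyson errors over the boxes
-/

namespace Vale.Agent.P155.J

open Finset Skel

/-- indicator of the complement of `G` -/
noncomputable def bad (G : Set Conf) : Conf → ℝ := Set.indicator {ω | ω ∉ G} (fun _ => (1 : ℝ))

theorem bad_nonneg (G : Set Conf) (ω : Conf) : 0 ≤ bad G ω :=
  Set.indicator_nonneg (fun _ _ => by norm_num) ω

theorem bad_of_notMem {G : Set Conf} {ω : Conf} (h : ω ∉ G) : bad G ω = 1 :=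
  Set.indicator_of_mem (s := {ω | ω ∉ G}) h _

theorem dF_spec {O : Set Pt} (hO : O.Finite) (x : Pt) : ∃ y, y ∉ O ∧ dn x y ≤ dF O x := by
  obtain ⟨y, hy⟩ := hO.infinite_compl.nonempty
  have hne : {r | ∃ y, y ∉ O ∧ dn x y ≤ r}.Nonempty := ⟨dn x y, y, hy, le_rfl⟩
  exact Nat.sInf_mem hne

theorem dF_mono {O O' : Set Pt} (h : O ⊆ O') (hO' : O'.Finite) (x : Pt) : dF O x ≤ dF O' x := by
  obtain ⟨y, hy, hd⟩ := dF_spec hO' x
  exact (dF_le (fun hh => hy (h hh))).trans hd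

theorem box_sub_Vk (hin : L_in) {T : Temp} {k : ℕ} {ω : Conf} (hω : ω ∈ DD T.V) {x : Pt} {n : ℕ}
    (hn : 1 ≤ n) (hd : 4 * n ≤ dF (Ok T k ω) x) : (box x n : Set Pt) ⊆ Vk T.V k ω := by
  intro v hv
  apply hin T k ω hω v
  intro f h1 h2 h3 h4
  apply mem_of_dn_lt (x := x)
  have : f ∈ box x (n + 1) := by
    rw [Finset.mem_coe, mem_box] at hv
    rw [mem_box]
    push_cast
    refine ⟨by linarith [hv.1], by linarith [hv.2.1], by linarith [hv.2.2.1], by linarith [hv.2.2.2]⟩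
  have := dn_le_iff.2 this
  omega

/-- one box -/
theorem q_bound (hex : L_expl) (hin : L_in) {T : Temp} {k : ℕ} {ω : Conf} (hω : ω ∈ DD T.V)
    {x : Pt} {n : ℕ} (hn : 1 ≤ n) (hd : 4 * n ≤ dF (Ok T k ω) x) {G : Set Conf} {W : Conf → ℂ}
    {b b' : ℝ} (hb : 0 ≤ b) (hb' : 0 ≤ b')
    (h1 : ∀ ω' ∈ DD T.V, ω' ∈ G → ‖cEx T.V (outside (Fk T.V 0) (box x n)) W ω'‖ ≤ b)
    (h2 : ∀ ω' ∈ DD T.V, ‖W ω'‖ ≤ b') :
    ‖cEx T.V (Fk T.V k) W ω‖ ≤ b + b' * cEx T.V (Fk T.V k) (bad G) ω := by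
  have hsub := box_sub_Vk hin hω hn hd
  rw [← cEx_outside (hex T k) (hex T 0) (B := (box x n : Set Pt)) hω hsub hsub W]
  calc ‖cEx T.V (Fk T.V k) (cEx T.V (outside (Fk T.V 0) (box x n)) W) ω‖
      ≤ avg (atom T.V (Fk T.V k) ω) (fun ω' =>
        ‖cEx T.V (outside (Fk T.V 0) (box x n)) W ω'‖) := norm_avg_le _ _
    _ ≤ avg (atom T.V (Fk T.V k) ω) (fun ω' => b + b' * bad G ω') := by
        apply avg_mono
        intro ω' h'
        have hD := atom_sub h'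
        by_cases hG : ω' ∈ G
        · have := h1 ω' hD hG
          have := bad_nonneg G ω'
          nlinarith [mul_nonneg hb' this]
        · rw [bad_of_notMem hG, mul_one]
          have : ‖cEx T.V (outside (Fk T.V 0) (box x n)) W ω'‖ ≤ b' := by
            apply norm_avg_le_const hb'
            intro ω'' h''
            exact h2 ω'' (atom_sub h'')
          linarith
    _ = avg (atom T.V (Fk T.V k) ω) (fun _ => b) + b' * cEx T.V (Fk T.V k) (bad G) ω := by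
        rw [avg_add, avg_mul_left]; rfl
    _ = _ := by rw [avg_const ⟨ω, self_mem_atom hω⟩]

theorem avg_sdTerm (B : Finset Conf) (φ ψ : Pt → ℝ) (τ : ℝ) :
    avg B (sdTerm φ ψ τ) = avg B (fun ω' => (hf ω' (lap ψ) : ℂ) *
      Complex.exp (Complex.I * τ * hf ω' φ)) + Complex.I * τ * (2 / Real.pi) * pair ψ φ *
      avg B (fun ω' => Complex.exp (Complex.I * τ * hf ω' φ)) := by
  rw [← avg_cmul_left, ← avg_add]; rfl

theorem two_div_pi_le_one : (2 : ℝ) / Real.pi ≤ 1 := by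
  rw [div_le_one Real.pi_pos]
  linarith [Real.pi_gt_three]

/-- trivial bound on the integrand -/
theorem norm_sdTerm_le {T : Temp} {R : ℕ} (hR1 : 1 ≤ R) (hR : Fits T R) {ω : Conf}
    (hω : ω ∈ DD T.V) {x : Pt} {t : ℕ} {H : ℝ} {ψ φ : Pt → ℝ} (h : IsBump x t H ψ) (ht : t ≤ R)
    {C0 Θ τ : ℝ} (hC0 : 0 ≤ C0) (hφ : ∀ y, |φ y| ≤ C0 / (R : ℝ) ^ 2) (hτ : |τ| ≤ Θ) :
    ‖sdTerm φ ψ τ ω‖ ≤ (1400 + 9 * Θ * C0) * (R : ℝ) ^ 3 * H := by
  have hH := IsBump.nonneg h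
  have hRr : (1 : ℝ) ≤ R := by exact_mod_cast hR1
  have htr : (t : ℝ) ≤ R := by exact_mod_cast ht
  have ht0 : (0 : ℝ) ≤ t := by positivity
  have hΘ : 0 ≤ Θ := (abs_nonneg _).trans hτ
  have n1 : ‖(hf ω (lap ψ) : ℂ) * Complex.exp (Complex.I * τ * hf ω φ)‖ ≤
      1400 * (R : ℝ) ^ 3 * H := by
    rw [norm_mul, norm_exp_I, mul_one, Complex.norm_real, Real.norm_eq_abs]
    refine (abs_hf_lap_le hR hω h).trans ?_
    have e1 : (2 * (t : ℝ) + 3) ^ 2 ≤ (5 * R) ^ 2 := by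
      apply pow_le_pow_left₀ (by positivity)
      linarith
    have e2 : 8 * H * (2 * (R : ℝ) + 5) ≤ 8 * H * (7 * R) := by
      apply mul_le_mul_of_nonneg_left (by linarith) (by positivity)
    calc (2 * (t : ℝ) + 3) ^ 2 * (8 * H * (2 * R + 5)) ≤ (5 * R) ^ 2 * (8 * H * (7 * R)) := by
          apply mul_le_mul e1 e2 (by positivity) (by positivity)
      _ = 1400 * (R : ℝ) ^ 3 * H := by ring
  have n2 : ‖Complex.I * τ * (2 / Real.pi) * pair ψ φ * Complex.exp (Complex.I * τ * hf ω φ)‖ ≤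
      9 * Θ * C0 * (R : ℝ) ^ 3 * H := by
    rw [norm_mul, norm_exp_I, mul_one, norm_mul, norm_mul, norm_mul, Complex.norm_I, one_mul,
      Complex.norm_real, Complex.norm_real, Real.norm_eq_abs, Real.norm_eq_abs]
    have h4 : ‖(2 / Real.pi : ℂ)‖ = 2 / Real.pi := by
      rw [show (2 / Real.pi : ℂ) = ((2 / Real.pi : ℝ) : ℂ) by push_cast; rfl, Complex.norm_real,
        Real.norm_of_nonneg (by positivity)]
    rw [h4]
    have hp : |pair ψ φ| ≤ (2 * t + 1) ^ 2 * (H * (C0 / (R : ℝ) ^ 2)) := by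
      unfold pair
      apply abs_finsum_le
      · intro y
        rw [abs_mul]
        exact mul_le_mul (IsBump.abs_le h y) (hφ y) (abs_nonneg _) hH
      · intro y hy
        rw [h.1 y hy, zero_mul]
    have hp2 : |pair ψ φ| ≤ 9 * C0 * H := by
      refine hp.trans ?_
      have e1 : (2 * (t : ℝ) + 1) ^ 2 ≤ (3 * R) ^ 2 := by
        apply pow_le_pow_left₀ (by positivity)
        linarith
      calc (2 * (t : ℝ) + 1) ^ 2 * (H * (C0 / (R : ℝ) ^ 2))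
          ≤ (3 * R) ^ 2 * (H * (C0 / (R : ℝ) ^ 2)) := by
            apply mul_le_mul_of_nonneg_right e1 (by positivity)
        _ = 9 * C0 * H := by
            field_simp
            ring
    calc |τ| * (2 / Real.pi) * |pair ψ φ| ≤ Θ * 1 * (9 * C0 * H) := by
          apply mul_le_mul (mul_le_mul hτ two_div_pi_le_one (by positivity) hΘ) hp2
            (abs_nonneg _) (by positivity)
      _ = 9 * Θ * C0 * H * 1 := by ring
      _ ≤ 9 * Θ * C0 * H * (R : ℝ) ^ 3 := by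
          apply mul_le_mul_of_nonneg_left (one_le_pow₀ hRr) (by positivity)
      _ = 9 * Θ * C0 * (R : ℝ) ^ 3 * H := by ring
  unfold sdTerm
  calc ‖_ + _‖ ≤ ‖_‖ + ‖_‖ := norm_add_le _ _
    _ ≤ 1400 * (R : ℝ) ^ 3 * H + 9 * Θ * C0 * (R : ℝ) ^ 3 * H := add_le_add n1 n2
    _ = _ := by ring

/-- `∑_q H_q e(n_q)` grouped by scales, given a bound for each scale. -/
theorem sum_scales {I : Finset ℕ} {n : ℕ → ℕ} {H : ℕ → ℝ} {e : ℕ → ℝ} {B K : ℝ}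
    (hB : ∀ m ∈ I.image n, (∑ q ∈ I.filter (fun q => n q = m), H q) * e m ≤ B)
    (hB0 : 0 ≤ B) (hK : ((I.image n).card : ℝ) ≤ K) :
    ∑ q ∈ I, H q * e (n q) ≤ K * B := by
  classical
  have h1 : ∑ q ∈ I, H q * e (n q) =
      ∑ m ∈ I.image n, ∑ q ∈ I.filter (fun q => n q = m), H q * e (n q) :=
    (Finset.sum_fiberwise_of_maps_to (fun q hq => Finset.mem_image_of_mem n hq) _).symm
  rw [h1]
  calc ∑ m ∈ I.image n, ∑ q ∈ I.filter (fun q => n q = m), H q * e (n q)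
      = ∑ m ∈ I.image n, (∑ q ∈ I.filter (fun q => n q = m), H q) * e m := by
        refine Finset.sum_congr rfl (fun m _ => ?_)
        rw [Finset.sum_mul]
        refine Finset.sum_congr rfl (fun q hq => ?_)
        rw [(Finset.mem_filter.1 hq).2]
    _ ≤ ∑ m ∈ I.image n, B := Finset.sum_le_sum hB
    _ = (I.image n).card * B := by rw [Finset.sum_const, nsmul_eq_mul]
    _ ≤ K * B := mul_le_mul_of_nonneg_right hK hB0

/-- the total Schwinger–Dyson error of the good boxes -/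
theorem good_sum {κ c a : ℝ} (hκ : 0 < κ) (hκa : κ ≤ a / 40) (hκc : κ ≤ c / 40)
    (hκ2 : κ ≤ 1 / 200) (ha : a ≤ 1 / 2) (hc : 0 < c) (hc1 : c ≤ 1) {R s M : ℕ} (hR : 1 ≤ R)
    (hM : M ≤ ⌊(R : ℝ) ^ (9 / 10 : ℝ)⌋₊) (hM2 : (R : ℝ) ^ (9 / 10 : ℝ) ≤ 2 * M)
    (hpar : ∀ n : ℕ, s ≤ 16 * n → (R : ℝ) ^ (a / 2) ≤ n ∧
        1 ≤ ⌊(n : ℝ) ^ (1 - 3 * κ)⌋₊ ∧ 16 * ⌊(n : ℝ) ^ (1 - 3 * κ)⌋₊ ≤ n ∧
        (n : ℝ) ^ (1 - 3 * κ) ≤ 2 * ⌊(n : ℝ) ^ (1 - 3 * κ)⌋₊)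
    {I : Finset ℕ} {n : ℕ → ℕ} {H : ℕ → ℝ} {CW K : ℝ} (hCW : 0 ≤ CW)
    (hn : ∀ q ∈ I, s ≤ 16 * n q ∧ n q ≤ M)
    (hsum : ∀ m : ℕ, (∑ q ∈ I.filter (fun q => n q = m), H q) *
      (⌊(m : ℝ) ^ (1 - 3 * κ)⌋₊ : ℝ) ^ 2 ≤
      CW * (if 2 * m ≤ M then (m : ℝ) ^ 2 else (R : ℝ) ^ 2))
    (hK : ((I.image n).card : ℝ) ≤ K) :
    ∑ q ∈ I, H q * eSD κ c R (n q) ≤
      K * (4 * CW * (R ^ (-(a / 4)) + 67 * (R : ℝ) ^ (-(1 / 10 : ℝ)) + 4 * (R : ℝ) ^ (-(c / 2)))) := by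
  have hRr : (1 : ℝ) ≤ R := by exact_mod_cast hR
  apply sum_scales (e := fun m => eSD κ c R m) _ (by positivity) hK
  intro m hm
  obtain ⟨q, hq, rfl⟩ := Finset.mem_image.1 hm
  set m := n q with hmdef
  obtain ⟨h1, h2⟩ := hn q hq
  obtain ⟨p1, p2, p3, p4⟩ := hpar m h1
  have hm1 : (1 : ℝ) ≤ m := (Real.one_le_rpow hRr (by linarith)).trans p1
  have hm0 : (0 : ℝ) < m := by linarith
  have hM3 : (m : ℝ) ≤ (R : ℝ) ^ (9 / 10 : ℝ) := by
    have : m ≤ ⌊(R : ℝ) ^ (9 / 10 : ℝ)⌋₊ := h2.trans hM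
    exact (Nat.le_floor_iff (by positivity)).1 this
  set S := ∑ q ∈ I.filter (fun q => n q = m), H q with hS
  set tt : ℝ := (⌊(m : ℝ) ^ (1 - 3 * κ)⌋₊ : ℝ) with htt
  have ht1 : 1 ≤ tt := by rw [htt]; exact_mod_cast p2
  have hse : 0 ≤ eSD κ c R m := eSD_nonneg (by linarith) hm0.le
  -- `S ≤ 4 m^{-2+6κ} * CW * (...)`
  have hinv : 1 ≤ 4 * (m : ℝ) ^ (-2 + 6 * κ) * tt ^ 2 := by
    have e1 : ((m : ℝ) ^ (1 - 3 * κ)) ^ (2 : ℕ) ≤ (2 * tt) ^ (2 : ℕ) :=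
      pow_le_pow_left₀ (by positivity) p4 2
    have e2 : ((m : ℝ) ^ (1 - 3 * κ)) ^ (2 : ℕ) = (m : ℝ) ^ (2 - 6 * κ) := by
      rw [← Real.rpow_natCast, ← Real.rpow_mul hm0.le]; congr 1; push_cast; ring
    rw [e2] at e1
    have e3 : (m : ℝ) ^ (-2 + 6 * κ) * (m : ℝ) ^ (2 - 6 * κ) = 1 := by
      rw [← Real.rpow_add hm0]; simp
    have e4 : 0 < (m : ℝ) ^ (-2 + 6 * κ) := by positivity
    calc (1 : ℝ) = (m : ℝ) ^ (-2 + 6 * κ) * (m : ℝ) ^ (2 - 6 * κ) := e3.symm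
      _ ≤ (m : ℝ) ^ (-2 + 6 * κ) * (2 * tt) ^ 2 := by gcongr
      _ = _ := by ring
  have hSle : S * eSD κ c R m ≤ 4 * CW * ((m : ℝ) ^ (-2 + 6 * κ) *
      (if 2 * m ≤ M then (m : ℝ) ^ 2 else (R : ℝ) ^ 2) * eSD κ c R m) := by
    rcases le_or_gt S 0 with hS0 | hS0
    · calc S * eSD κ c R m ≤ 0 := mul_nonpos_of_nonpos_of_nonneg hS0 hse
        _ ≤ _ := by
          apply mul_nonneg (by positivity)
          apply mul_nonneg _ hse
          split_ifs <;> positivity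
    · have h3 : S ≤ 4 * (m : ℝ) ^ (-2 + 6 * κ) * (CW *
          (if 2 * m ≤ M then (m : ℝ) ^ 2 else (R : ℝ) ^ 2)) := by
        calc S = S * 1 := (mul_one _).symm
          _ ≤ S * (4 * (m : ℝ) ^ (-2 + 6 * κ) * tt ^ 2) :=
            mul_le_mul_of_nonneg_left hinv hS0.le
          _ = 4 * (m : ℝ) ^ (-2 + 6 * κ) * (S * tt ^ 2) := by ring
          _ ≤ 4 * (m : ℝ) ^ (-2 + 6 * κ) * (CW *
              (if 2 * m ≤ M then (m : ℝ) ^ 2 else (R : ℝ) ^ 2)) := by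
            apply mul_le_mul_of_nonneg_left (hsum m) (by positivity)
      calc S * eSD κ c R m ≤ 4 * (m : ℝ) ^ (-2 + 6 * κ) * (CW *
          (if 2 * m ≤ M then (m : ℝ) ^ 2 else (R : ℝ) ^ 2)) * eSD κ c R m :=
            mul_le_mul_of_nonneg_right h3 hse
        _ = _ := by ring
  refine hSle.trans ?_
  apply mul_le_mul_of_nonneg_left _ (by positivity)
  have g1 : 0 ≤ (R : ℝ) ^ (-(a / 4)) := by positivity
  have g2 : 0 ≤ (R : ℝ) ^ (-(1 / 10 : ℝ)) := by positivity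
  have g3 : 0 ≤ (R : ℝ) ^ (-(c / 2)) := by positivity
  split_ifs with hcase
  · have e1 : (m : ℝ) ^ (-2 + 6 * κ) * (m : ℝ) ^ 2 = (m : ℝ) ^ (6 * κ) := by
      rw [← Real.rpow_natCast (m : ℝ) 2, ← Real.rpow_add hm0]
      congr 1; push_cast; ring
    rw [e1]
    have := num_A hκ hκa hκ2 (by linarith) hc hc1 hRr p1 hM3
    linarith
  · have e1 : (m : ℝ) ^ (-2 + 6 * κ) * (R : ℝ) ^ 2 = (R : ℝ) ^ (2 : ℕ) * (m : ℝ) ^ (-2 + 6 * κ) :=
      mul_comm _ _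
    rw [e1]
    have h4 : (R : ℝ) ^ (9 / 10 : ℝ) ≤ 4 * m := by
      have : (M : ℝ) ≤ 2 * m := by
        have : M ≤ 2 * m := by omega
        exact_mod_cast this
      linarith
    have := num_B hκ hκc hκ2 hc hc1 hRr h4 hM3
    linarith

end Vale.Agent.P155.J
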