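import Vale.Agent.P155.J.Main

/-!
# P155, block J: the discrete main theorem `J_main` from the interface statements
-/

namespace Vale.Agent.P155.J

open Finset Skel

theorem wdata {C0 CW0 CW : ℝ} (hCW : CW0 ≤ CW) {R : ℕ} {O : Set Pt} {φ u : Pt → ℝ} {s M : ℕ}
    {κ : ℝ}
    (hW : ∃ χ : Pt → ℝ, IsCut O s CW0 χ ∧
      ∃ (I : Finset ℕ) (x : ℕ → Pt) (n : ℕ → ℕ) (H : ℕ → ℝ) (ψ : ℕ → Pt → ℝ),
      (∀ q ∈ I, s ≤ 16 * n q ∧ n q ≤ M ∧ 4 * n q ≤ dF O (x q) ∧ 0 ≤ H q ∧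
        IsBump (x q) (⌊((n q : ℕ) : ℝ) ^ (1 - 3 * κ)⌋₊) (H q) (ψ q)) ∧
      (∀ y, χ y * u y = ∑ q ∈ I, ψ q y) ∧
      (∀ m : ℕ, (∑ q ∈ I.filter (fun q => n q = m), H q) * (⌊((m : ℕ) : ℝ) ^ (1 - 3 * κ)⌋₊ : ℝ) ^ 2 ≤
        CW0 * (if 2 * m ≤ M then (m : ℝ) ^ 2 else (R : ℝ) ^ 2)) ∧
      ((I.image n).card : ℝ) ≤ CW0 * (1 + Real.log R)) (hR : 1 ≤ R) :
    Nonempty (WData O R s M κ CW u) := by
  obtain ⟨χ, hχ, I, x, n, H, ψ, h1, h2, h3, h4⟩ := hW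
  refine ⟨⟨χ, isCut_mono hχ hCW, I, x, n, H, ψ, h1, h2, fun m => (h3 m).trans ?_, h4.trans ?_⟩⟩
  · apply mul_le_mul_of_nonneg_right hCW
    split_ifs <;> positivity
  · apply mul_le_mul_of_nonneg_right hCW
    have : 0 ≤ Real.log R := Real.log_nonneg (by exact_mod_cast hR)
    linarith

theorem one_add_log_le {γ : ℝ} (hγ : 0 < γ) {R : ℝ} (hR : 1 ≤ R) :
    1 + Real.log R ≤ (1 + 2 / γ) * R ^ (γ / 2) := by
  have h1 := Real.log_le_rpow_div (show 0 ≤ R by linarith) (show 0 < γ / 2 by linarith)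
  have h2 : 1 ≤ R ^ (γ / 2) := Real.one_le_rpow hR (by linarith)
  calc 1 + Real.log R ≤ R ^ (γ / 2) + R ^ (γ / 2) / (γ / 2) := add_le_add h2 h1
    _ = (1 + 2 / γ) * R ^ (γ / 2) := by field_simp

theorem T2_bound {γ a c R CE CW : ℝ} (hγ : 0 < γ) (h1 : γ ≤ a / 4) (h2 : γ ≤ 1 / 10)
    (h3 : γ ≤ c / 2) (hR : 1 ≤ R) (hCE : 0 ≤ CE) (hCW : 0 ≤ CW) :
    CE * (CW * (1 + Real.log R) *
      (4 * CW * (R ^ (-(a / 4)) + 67 * R ^ (-(1 / 10 : ℝ)) + 4 * R ^ (-(c / 2))))) ≤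
    CE * CW * (1 + 2 / γ) * (288 * CW) * R ^ (-(γ / 2)) := by
  have hR0 : 0 < R := by linarith
  have e1 : R ^ (-(a / 4)) ≤ R ^ (-γ) := Real.rpow_le_rpow_of_exponent_le hR (by linarith)
  have e2 : R ^ (-(1 / 10 : ℝ)) ≤ R ^ (-γ) := Real.rpow_le_rpow_of_exponent_le hR (by linarith)
  have e3 : R ^ (-(c / 2)) ≤ R ^ (-γ) := Real.rpow_le_rpow_of_exponent_le hR (by linarith)
  have e4 := one_add_log_le hγ hR
  have hlog : 0 ≤ 1 + Real.log R := by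
    have := Real.log_nonneg hR
    linarith
  calc CE * (CW * (1 + Real.log R) *
      (4 * CW * (R ^ (-(a / 4)) + 67 * R ^ (-(1 / 10 : ℝ)) + 4 * R ^ (-(c / 2)))))
      ≤ CE * (CW * ((1 + 2 / γ) * R ^ (γ / 2)) *
      (4 * CW * (R ^ (-γ) + 67 * R ^ (-γ) + 4 * R ^ (-γ)))) := by gcongr
    _ = CE * CW * (1 + 2 / γ) * (288 * CW) * (R ^ (γ / 2) * R ^ (-γ)) := by ring
    _ = _ := by
      rw [← Real.rpow_add hR0]
      congr 2; ring

theorem T3_bound {R D CE CW : ℝ} (hR : 1 ≤ R) (hD : 0 ≤ D) (hCE : 0 ≤ CE) (hCW : 0 ≤ CW) :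
    D * R ^ 3 * (CW * (1 + Real.log R) * (CW * R ^ 2)) *
      ((2 * R + 1) ^ 2 * ((R + 1) * (CE * R ^ (-20 : ℝ)))) ≤
    18 * D * CW ^ 2 * CE * R ^ (-1 : ℝ) := by
  have hR0 : 0 < R := by linarith
  have h1 : 1 + Real.log R ≤ R := by
    have := Real.log_le_sub_one_of_pos hR0
    linarith
  have hlog : 0 ≤ 1 + Real.log R := by
    have := Real.log_nonneg hR
    linarith
  have e1 : (2 * R + 1) ^ 2 ≤ (3 * R) ^ 2 := pow_le_pow_left₀ (by positivity) (by linarith) 2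
  have e2 : R + 1 ≤ 2 * R := by linarith
  calc D * R ^ 3 * (CW * (1 + Real.log R) * (CW * R ^ 2)) *
      ((2 * R + 1) ^ 2 * ((R + 1) * (CE * R ^ (-20 : ℝ))))
      ≤ D * R ^ 3 * (CW * R * (CW * R ^ 2)) *
      ((3 * R) ^ 2 * ((2 * R) * (CE * R ^ (-20 : ℝ)))) := by gcongr
    _ = 18 * D * CW ^ 2 * CE * (R ^ (9 : ℕ) * R ^ (-20 : ℝ)) := by ring
    _ = 18 * D * CW ^ 2 * CE * R ^ (-11 : ℝ) := by
      rw [← Real.rpow_natCast R 9, ← Real.rpow_add hR0]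
      norm_num
    _ ≤ 18 * D * CW ^ 2 * CE * R ^ (-1 : ℝ) :=
      mul_le_mul_of_nonneg_left (Real.rpow_le_rpow_of_exponent_le hR (by norm_num)) (by positivity)

theorem T4_bound {R β a : ℝ} {s : ℕ} (hR : 1 ≤ R) (hβ : 0 < β) (ha0 : 0 ≤ a) (ha : a ≤ 1 / 2)
    (hs : s = ⌈R ^ a⌉₊) : ((2 * s : ℝ) / R) ^ β ≤ 4 ^ β * R ^ (-(β / 2)) := by
  have hR0 : 0 < R := by linarith
  have h1 : (s : ℝ) ≤ 2 * R ^ a := by
    rw [hs]
    have h2 := Nat.ceil_lt_add_one (show 0 ≤ R ^ a by positivity)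
    have h3 : 1 ≤ R ^ a := Real.one_le_rpow hR ha0
    linarith
  have h2 : (2 * s : ℝ) / R ≤ 4 * R ^ (-(1 / 2) : ℝ) := by
    have h3 : R ^ a ≤ R ^ (1 / 2 : ℝ) := Real.rpow_le_rpow_of_exponent_le hR ha
    have h4 : R ^ (-(1 / 2) : ℝ) * R = R ^ (1 / 2 : ℝ) := by
      calc R ^ (-(1 / 2) : ℝ) * R = R ^ (-(1 / 2) : ℝ) * R ^ (1 : ℝ) := by rw [Real.rpow_one]
        _ = R ^ (1 / 2 : ℝ) := by rw [← Real.rpow_add hR0]; norm_num
    rw [div_le_iff₀ hR0, mul_assoc, h4]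
    linarith
  calc ((2 * s : ℝ) / R) ^ β ≤ (4 * R ^ (-(1 / 2) : ℝ)) ^ β :=
        Real.rpow_le_rpow (by positivity) h2 hβ.le
    _ = 4 ^ β * R ^ (-(β / 2)) := by
      rw [Real.mul_rpow (by norm_num) (by positivity), ← Real.rpow_mul hR0.le]
      congr 2; ring

/-- The total error for one value of `τ`. -/
theorem avg_total {T : Temp} {k R : ℕ} {G : Pt → ℕ → Set Conf} {A : Conf → ℝ} {g : Conf → ℝ}
    {t1 t2 t3 t4 P : ℝ} (ht2 : 0 ≤ t2) (ht3 : 0 ≤ t3) (ht4 : 0 ≤ t4)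
    (h : ∀ ω ∈ DD T.V, A ω ≤ g ω + t2 + t3 * badSum T k R G ω + t4)
    (hg : Ex T.V g ≤ t1) (hb : Ex T.V (badSum T k R G) ≤ P) :
    avg (DD T.V) A ≤ t1 + t2 + t3 * P + t4 := by
  calc avg (DD T.V) A ≤ avg (DD T.V) (fun ω => g ω + t2 + t3 * badSum T k R G ω + t4) :=
        avg_mono h
    _ = Ex T.V g + avg (DD T.V) (fun _ => t2) + t3 * Ex T.V (badSum T k R G) +
        avg (DD T.V) (fun _ => t4) := by
        rw [avg_add, avg_add, avg_add, avg_mul_left]; rfl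
    _ ≤ t1 + t2 + t3 * P + t4 := by
        have e2 : avg (DD T.V) (fun _ => t2) ≤ t2 := avg_le_const ht2 (fun _ _ => le_rfl)
        have e4 : avg (DD T.V) (fun _ => t4) ≤ t4 := avg_le_const ht4 (fun _ _ => le_rfl)
        have e3 : t3 * Ex T.V (badSum T k R G) ≤ t3 * P := mul_le_mul_of_nonneg_left hb ht3
        linarith

theorem sqrt_rpow {CH cH R : ℝ} (hR : 0 < R) :
    Real.sqrt (|CH| * R ^ (-cH)) = Real.sqrt |CH| * R ^ (-(cH / 2)) := by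
  rw [Real.sqrt_mul (abs_nonneg _)]
  congr 1
  rw [Real.sqrt_eq_rpow, ← Real.rpow_mul hR.le]
  congr 1; ring

theorem j_main (hSD : E_SD) (hH : H_final) (hW : W_final) (hG : G_decay) (hcp : L_cp)
    (hex : L_expl) (hhk : L_hk) (hin : L_in) (hconst : L_const) : J_main := by
  classical
  intro k Θ C0
  by_cases hC0 : 0 ≤ C0
  swap
  · refine ⟨1, by norm_num, 0, fun R T φ hR _ hφ => ?_⟩
    exfalso
    have h1 := IsBump.nonneg hφ
    have h2 : C0 / (R : ℝ) ^ 2 < 0 := by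
      apply div_neg_of_neg_of_pos (not_le.1 hC0)
      have : (0 : ℝ) < R := by exact_mod_cast hR
      positivity
    linarith
  obtain ⟨β, hβ, hdec⟩ := decay_scaled hG
  obtain ⟨Cd, hCd, hdec⟩ := hdec C0 hC0
  obtain ⟨CW0, hW⟩ := hW C0
  set CW := max CW0 0 with hCWdef
  have hCW : 0 ≤ CW := le_max_right _ _
  obtain ⟨a0, ha0, hH⟩ := hH
  set a := min a0 (1 / 2) with hadef
  have ha : 0 < a := lt_min ha0 (by norm_num)
  have ha2 : a ≤ 1 / 2 := min_le_right _ _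
  obtain ⟨cH, hcH, CH, hH⟩ := hH a ha (min_le_left _ _) k (max C0 CW)
  obtain ⟨c0, hc0, hSD⟩ := hSD
  set c := min c0 1 with hcdef
  have hc : 0 < c := lt_min hc0 (by norm_num)
  have hc1 : c ≤ 1 := min_le_right _ _
  set κ := min (min (a / 40) (c / 40)) (1 / 200) with hκdef
  have hκ : 0 < κ := lt_min (lt_min (by linarith) (by linarith)) (by norm_num)
  have hκa : κ ≤ a / 40 := (min_le_left _ _).trans (min_le_left _ _)
  have hκc : κ ≤ c / 40 := (min_le_left _ _).trans (min_le_right _ _)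
  have hκ2 : κ ≤ 1 / 200 := min_le_right _ _
  obtain ⟨CE0, hE⟩ := hSD κ (a / 2) 20 Θ C0 hκ (by linarith) (by linarith) (by norm_num)
  set CE := max CE0 0 with hCEdef
  have hCE : 0 ≤ CE := le_max_right _ _
  obtain ⟨R0, hR01, hpar⟩ := params hκ hκa hκ2 ha2
  -- exponents
  set γ1 := min (a / 4) (min (1 / 10) (c / 2)) with hγ1
  have hγ1p : 0 < γ1 := lt_min (by linarith) (lt_min (by norm_num) (by linarith))
  set γ := min (min (cH / 2) (γ1 / 2)) (min 1 (β / 2)) with hγ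
  have hγp : 0 < γ := lt_min (lt_min (by linarith) (by linarith)) (lt_min (by norm_num) (by linarith))
  set K1 := Real.sqrt |CH| with hK1
  set K2 := CE * CW * (1 + 2 / γ1) * (288 * CW) with hK2
  set K3 := 18 * (1400 + 9 * |Θ| * C0) * CW ^ 2 * CE with hK3
  set K4 := |Θ| * (9 * C0 * Cd * 4 ^ β) with hK4
  refine ⟨γ, hγp, |Θ| * (K1 + K2 + K3 + K4) + 2 * (R0 : ℝ) ^ γ, ?_⟩
  intro R T φ hR hT hφ hsupp θ hθ u hu
  have hRr : (1 : ℝ) ≤ R := by exact_mod_cast hR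
  have hR0 : (0 : ℝ) < R := by linarith
  have hΘ : 0 ≤ Θ := (abs_nonneg _).trans hθ
  have hfin : T.faceSet.Finite := fs_of_sub_box hT
  have hOfin : ∀ ω, (Ok T k ω).Finite := fun ω => hfin.subset (Ok_sub T k ω)
  have hK1n : 0 ≤ K1 := Real.sqrt_nonneg _
  have hK2n : 0 ≤ K2 := by positivity
  have hK3n : 0 ≤ K3 := by positivity
  have hK4n : 0 ≤ K4 := by positivity
  by_cases hRR : R0 ≤ R
  swap
  · -- small `R`
    have h1 : Ex T.V (fun ω => ‖cEx T.V (Fk T.V k)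
        (fun ω' => Complex.exp (Complex.I * θ * hkf k ω' φ)) ω -
        (Real.exp (- θ ^ 2 / Real.pi * pair φ (u ω)) : ℝ)‖) ≤ 2 := by
      apply Ex_le_const (by norm_num)
      intro ω hω
      have e1 : ‖cEx T.V (Fk T.V k) (fun ω' => Complex.exp (Complex.I * θ * hkf k ω' φ)) ω‖ ≤ 1 :=
        norm_avg_le_const (by norm_num) (fun _ _ => (norm_exp_I _ _).le)
      have e2 : ‖((Real.exp (- θ ^ 2 / Real.pi * pair φ (u ω)) : ℝ) : ℂ)‖ ≤ 1 := by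
        rw [Complex.norm_real, Real.norm_of_nonneg (Real.exp_pos _).le, Real.exp_le_one_iff]
        have := pair_green_nonneg (hOfin ω) (hu ω hω)
        have h3 : - θ ^ 2 / Real.pi ≤ 0 := by
          rw [neg_div]
          have : 0 ≤ θ ^ 2 / Real.pi := by positivity
          linarith
        exact mul_nonpos_of_nonpos_of_nonneg h3 this
      calc ‖_ - _‖ ≤ ‖_‖ + ‖_‖ := norm_sub_le _ _
        _ ≤ 1 + 1 := add_le_add e1 e2
        _ = 2 := by norm_num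
    refine h1.trans ?_
    have h2 : (1 : ℝ) ≤ (R0 : ℝ) ^ γ * (R : ℝ) ^ (-γ) := by
      rw [Real.rpow_neg hR0.le, ← div_eq_mul_inv, one_le_div (by positivity)]
      apply Real.rpow_le_rpow hR0.le _ hγp.le
      exact_mod_cast (not_le.1 hRR).le
    have h3 : 0 ≤ |Θ| * (K1 + K2 + K3 + K4) * (R : ℝ) ^ (-γ) := by positivity
    calc (2 : ℝ) ≤ 2 * ((R0 : ℝ) ^ γ * (R : ℝ) ^ (-γ)) := by linarith
      _ ≤ _ := by linarith
  -- large `R`
  obtain ⟨hs64, hsM, hMR, hM2, hpar⟩ := hpar R hRR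
  set s := ⌈(R : ℝ) ^ a⌉₊ with hs
  set M := ⌊(R : ℝ) ^ (9 / 10 : ℝ)⌋₊ with hM
  have hWe : ∀ ω ∈ DD T.V, Nonempty (WData (Ok T k ω) R s M κ CW (u ω)) := by
    intro ω hω
    refine wdata (C0 := C0) (φ := φ) (le_max_left CW0 0) ?_ hR
    exact hW R (Ok T k ω) φ (u ω) s M (fun n => ⌊(n : ℝ) ^ (1 - 3 * κ)⌋₊) hR
      ((Ok_sub T k ω).trans hT) (hcp T k ω hω) hφ (hu ω hω) hs64 hsM hMR
      (fun n hn => ⟨(hpar n hn).2.1, (hpar n hn).2.2.1⟩)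
  -- good events
  have hE' : ∀ (R : ℕ) (T : Temp), 1 ≤ R → Fits T R → ∀ (x : Pt) (n : ℕ), (R : ℝ) ^ (a / 2) ≤ n →
      2 * n ≤ dF T.faceSet x → ∃ G : Set Conf, Pr T.V (fun ω => ω ∉ G) ≤ CE * (R : ℝ) ^ (-20 : ℝ) ∧
      ∀ ω ∈ DD T.V, ω ∈ G → ∀ (H : ℝ) (ψ φ : Pt → ℝ), IsBump x ⌊(n : ℝ) ^ (1 - 3 * κ)⌋₊ H ψ →
      (∀ y, |φ y| ≤ C0 / (R : ℝ) ^ 2) → ∀ θ : ℝ, |θ| ≤ Θ →
      ‖cEx T.V (outside (Fk T.V 0) (box x n))
          (fun ω' => (hf ω' (lap ψ) : ℂ) * Complex.exp (Complex.I * θ * hf ω' φ)) ω +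
        Complex.I * θ * (2 / Real.pi) * pair ψ φ * cEx T.V (outside (Fk T.V 0) (box x n))
          (fun ω' => Complex.exp (Complex.I * θ * hf ω' φ)) ω‖ ≤
        CE * H * (R : ℝ) ^ κ *
          ((n : ℝ) ^ (-1 + κ) + (n / R : ℝ) ^ 2 * (n : ℝ) ^ (-c0) + (n / R : ℝ) ^ 4) := by
    intro R T hR hT x n h1 h2
    obtain ⟨G, hG1, hG2⟩ := hE R T hR hT x n h1 h2
    refine ⟨G, hG1.trans ?_, fun ω hω hg H ψ φ hψ hφ θ hθ => (hG2 ω hω hg H ψ φ hψ hφ θ hθ).trans ?_⟩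
    · exact mul_le_mul_of_nonneg_right (le_max_left _ _) (by positivity)
    · have := IsBump.nonneg hψ
      have h3 : CE0 ≤ CE := le_max_left _ _
      gcongr
  obtain ⟨G, hGp, hGg⟩ := good_events hE' hCE hR hT
  -- the cut-off as a function of ω
  set χ : Conf → Pt → ℝ := fun ω => if h : ω ∈ DD T.V then (Classical.choice (hWe ω h)).χ else
    fun _ => 0 with hχ
  have hχcut : ∀ ω ∈ DD T.V, IsCut (Ok T k ω) s (max C0 CW) (χ ω) := by
    intro ω hω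
    have : χ ω = (Classical.choice (hWe ω hω)).χ := by simp only [hχ, dif_pos hω]
    rw [this]
    exact isCut_mono (Classical.choice (hWe ω hω)).cut (le_max_right _ _)
  have hHH := hH R T φ hR hT (isBump_mono hφ (by
      apply div_le_div_of_nonneg_right (le_max_left _ _) (by positivity)))
    (fun y hy => (hsupp y hy).trans (mul_le_mul_of_nonneg_right (le_max_left _ _) (by positivity)))
    u χ hu hχcut
  set g : Conf → ℝ := fun ω => cEx T.V (Fk T.V k)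
    (fun ω' => |hkf k ω' (fL (Ok T k ω) φ (χ ω) (u ω))|) ω with hg
  have hg1 : Ex T.V g ≤ K1 * (R : ℝ) ^ (-(cH / 2)) := by
    have e1 : (Ex T.V g) ^ 2 ≤ |CH| * (R : ℝ) ^ (-cH) := by
      calc (Ex T.V g) ^ 2 ≤ Ex T.V (fun ω => g ω ^ 2) := sq_avg_le _ _
        _ ≤ Ex T.V (fun ω => cEx T.V (Fk T.V k)
            (fun ω' => (hkf k ω' (fL (Ok T k ω) φ (χ ω) (u ω))) ^ 2) ω) := by
            apply Ex_mono
            intro ω _
            have := sq_avg_le (atom T.V (Fk T.V k) ω)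
              (fun ω' => |hkf k ω' (fL (Ok T k ω) φ (χ ω) (u ω))|)
            simp only [sq_abs] at this
            exact this
        _ ≤ CH * (R : ℝ) ^ (-cH) := hHH
        _ ≤ |CH| * (R : ℝ) ^ (-cH) := mul_le_mul_of_nonneg_right (le_abs_self _) (by positivity)
    have e2 : Ex T.V g ≤ Real.sqrt (|CH| * (R : ℝ) ^ (-cH)) := Real.le_sqrt_of_sq_le e1
    rw [sqrt_rpow hR0] at e2
    exact e2
  -- the pairing error
  set EP := 9 * C0 * Cd * ((2 * s : ℝ) / R) ^ β with hEP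
  have hEPn : 0 ≤ EP := by positivity
  have hEPb : Θ * EP ≤ K4 * (R : ℝ) ^ (-(β / 2)) := by
    have e1 := T4_bound hRr hβ ha.le ha2 hs
    calc Θ * EP ≤ |Θ| * (9 * C0 * Cd * (4 ^ β * (R : ℝ) ^ (-(β / 2)))) := by
          rw [hEP]; gcongr; exact le_abs_self _
      _ = K4 * (R : ℝ) ^ (-(β / 2)) := by rw [hK4]; ring
  set ε := K1 * (R : ℝ) ^ (-(cH / 2)) + CE * (CW * (1 + Real.log R) *
        (4 * CW * ((R : ℝ) ^ (-(a / 4)) + 67 * (R : ℝ) ^ (-(1 / 10 : ℝ)) +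
          4 * (R : ℝ) ^ (-(c / 2))))) +
      (1400 + 9 * Θ * C0) * (R : ℝ) ^ 3 * (CW * (1 + Real.log R) * (CW * (R : ℝ) ^ 2)) *
        ((2 * R + 1) ^ 2 * ((R + 1) * (CE * (R : ℝ) ^ (-20 : ℝ)))) + Θ * EP with hε
  have hlog : 0 ≤ Real.log R := Real.log_nonneg hRr
  have hode : ∀ τ : ℝ, |τ| ≤ |θ| → avg (DD T.V) (fun ω => ‖odeErr (atom T.V (Fk T.V k) ω)
      (fun ω' => hkf k ω' φ) (2 / Real.pi * pair φ (u ω)) τ‖) ≤ ε := by
    intro τ hτ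
    refine avg_total (k := k) (g := g) (G := G) (by positivity) (by positivity) (by positivity) ?_ hg1
      (Ex_badSum hex hGp)
    intro ω hω
    have hcut : χ ω = (Classical.choice (hWe ω hω)).χ := by simp only [hχ, dif_pos hω]
    have := atom_bound hhk hconst hex hin hω (c0 := c0) hκ hκa hκc hκ2 ha2 hc hc1
      (min_le_left _ _) hCW hCE hC0 hR hT (by omega) hMR le_rfl hM2 hpar hφ (hu ω hω)
      (Classical.choice (hWe ω hω)) (Θ := Θ) hGg (hτ.trans hθ) (EP := EP)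
      (pair_cut hR hC0 hCd hβ hφ (hu ω hω) (hOfin ω)
        (hdec R (Ok T k ω) φ (u ω) hR ((Ok_sub T k ω).trans hT) (hcp T k ω hω) (hu ω hω)
          (fun y => IsBump.abs_le hφ y)) (Classical.choice (hWe ω hω)).cut)
    rw [hg]
    simp only [hcut]
    exact this
  have hfinal := char_close (DD T.V) (fun ω => atom T.V (Fk T.V k) ω)
    (fun ω hω => ⟨ω, self_mem_atom hω⟩) (fun _ ω' => hkf k ω' φ)
    (fun ω => 2 / Real.pi * pair φ (u ω))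
    (fun ω hω => mul_nonneg (by positivity) (pair_green_nonneg (hOfin ω) (hu ω hω))) hode
  have heq : Ex T.V (fun ω => ‖cEx T.V (Fk T.V k)
        (fun ω' => Complex.exp (Complex.I * θ * hkf k ω' φ)) ω -
        (Real.exp (- θ ^ 2 / Real.pi * pair φ (u ω)) : ℝ)‖) ≤ |θ| * ε := by
    refine le_trans (le_of_eq ?_) hfinal
    refine avg_congr (fun ω _ => ?_)
    have : - θ ^ 2 / Real.pi * pair φ (u ω) = -(2 / Real.pi * pair φ (u ω) * θ ^ 2 / 2) := by ring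
    rw [this]
    rfl
  refine heq.trans ?_
  -- numeric
  have hεb : ε ≤ (K1 + K2 + K3 + K4) * (R : ℝ) ^ (-γ) := by
    have g1 : γ ≤ cH / 2 := (min_le_left _ _).trans (min_le_left _ _)
    have g2 : γ ≤ γ1 / 2 := (min_le_left _ _).trans (min_le_right _ _)
    have g3 : γ ≤ 1 := (min_le_right _ _).trans (min_le_left _ _)
    have g4 : γ ≤ β / 2 := (min_le_right _ _).trans (min_le_right _ _)
    have e1 : (R : ℝ) ^ (-(cH / 2)) ≤ (R : ℝ) ^ (-γ) :=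
      Real.rpow_le_rpow_of_exponent_le hRr (by linarith)
    have e2 : (R : ℝ) ^ (-(γ1 / 2)) ≤ (R : ℝ) ^ (-γ) :=
      Real.rpow_le_rpow_of_exponent_le hRr (by linarith)
    have e3 : (R : ℝ) ^ (-1 : ℝ) ≤ (R : ℝ) ^ (-γ) :=
      Real.rpow_le_rpow_of_exponent_le hRr (by linarith)
    have e4 : (R : ℝ) ^ (-(β / 2)) ≤ (R : ℝ) ^ (-γ) :=
      Real.rpow_le_rpow_of_exponent_le hRr (by linarith)
    have f2 := T2_bound hγ1p (min_le_left _ _) ((min_le_right _ _).trans (min_le_left _ _))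
      ((min_le_right _ _).trans (min_le_right _ _)) hRr hCE hCW (a := a) (c := c)
    have f3 := T3_bound (D := 1400 + 9 * Θ * C0) hRr (by positivity) hCE hCW
    have habs : |Θ| = Θ := abs_of_nonneg hΘ
    calc ε ≤ K1 * (R : ℝ) ^ (-(cH / 2)) + K2 * (R : ℝ) ^ (-(γ1 / 2)) +
          K3 * (R : ℝ) ^ (-1 : ℝ) + K4 * (R : ℝ) ^ (-(β / 2)) := by
          rw [hε, hK2, hK3, habs]
          gcongr
      _ ≤ K1 * (R : ℝ) ^ (-γ) + K2 * (R : ℝ) ^ (-γ) + K3 * (R : ℝ) ^ (-γ) +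
          K4 * (R : ℝ) ^ (-γ) := by gcongr
      _ = _ := by ring
  have hRγ : 0 ≤ (R : ℝ) ^ (-γ) := by positivity
  calc |θ| * ε ≤ |Θ| * ((K1 + K2 + K3 + K4) * (R : ℝ) ^ (-γ)) := by
        apply mul_le_mul (hθ.trans (le_abs_self _)) hεb _ (abs_nonneg _)
        rw [hε]; positivity
    _ ≤ (|Θ| * (K1 + K2 + K3 + K4) + 2 * (R0 : ℝ) ^ γ) * (R : ℝ) ^ (-γ) := by
        have : 0 ≤ 2 * (R0 : ℝ) ^ γ * (R : ℝ) ^ (-γ) := by positivity
        linarith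

end Vale.Agent.P155.J
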