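import Vale.Agent.P155.J.Sum

/-!
# P155, block J: the main theorem
-/

namespace Vale.Agent.P155.J

open Finset Skel

theorem isBump_mono {x : Pt} {t : ℕ} {H H' : ℝ} {ψ : Pt → ℝ} (h : IsBump x t H ψ) (hH : H ≤ H') :
    IsBump x t H' ψ :=
  ⟨h.1, fun a b hab y => (h.2 a b hab y).trans (mul_le_mul_of_nonneg_right hH (by positivity))⟩

theorem isCut_mono {O : Set Pt} {s : ℕ} {C C' : ℝ} {χ : Pt → ℝ} (h : IsCut O s C χ)
    (hC : C ≤ C') : IsCut O s C' χ :=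
  ⟨h.nonneg, h.le_one, h.zero, h.one, fun a b hab y =>
    (h.diff a b hab y).trans (mul_le_mul_of_nonneg_right hC (by positivity))⟩

theorem isGreen_smul {O : Set Pt} {φ u : Pt → ℝ} (h : IsGreen O φ u) (c : ℝ) :
    IsGreen O (fun x => c * φ x) (fun x => c * u x) :=
  ⟨fun x hx => by rw [h.off x hx, mul_zero], fun x hx => by
    rw [← h.eq x hx]; unfold lap; ring⟩

/-- boundary decay of the Green potential for a bump -/
theorem decay_scaled (hG : G_decay) : ∃ β > (0 : ℝ), ∀ C0 : ℝ, 0 ≤ C0 → ∃ C : ℝ, 0 ≤ C ∧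
    ∀ (R : ℕ) (O : Set Pt) (φ u : Pt → ℝ), 1 ≤ R → O ⊆ (box (0, 0) R : Set Pt) → CP O →
      IsGreen O φ u → (∀ y, |φ y| ≤ C0 / (R : ℝ) ^ 2) →
      ∀ x, |u x| ≤ C * ((dF O x : ℝ) / R) ^ β := by
  obtain ⟨β, hβ, C, hC⟩ := hG
  refine ⟨β, hβ, fun C0 hC0 => ⟨(C0 + 1) * |C|, by positivity, ?_⟩⟩
  intro R O φ u hR hO hcp hu hφ x
  have hRr : (1 : ℝ) ≤ R := by exact_mod_cast hR
  have h1 := hC R O (fun x => (C0 + 1)⁻¹ * φ x) (fun x => (C0 + 1)⁻¹ * u x) hR hO hcp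
    (isGreen_smul hu _) (fun y => by
      rw [abs_mul, abs_of_pos (by positivity)]
      calc (C0 + 1)⁻¹ * |φ y| ≤ (C0 + 1)⁻¹ * (C0 / (R : ℝ) ^ 2) := by
            gcongr; exact hφ y
        _ = (C0 / (C0 + 1)) * (1 / (R : ℝ) ^ 2) := by field_simp
        _ ≤ 1 * (1 / (R : ℝ) ^ 2) := by
            gcongr
            rw [div_le_one (by positivity)]; linarith
        _ = _ := one_mul _) x
  rw [abs_mul, abs_of_pos (by positivity)] at h1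
  have h2 : |u x| = (C0 + 1) * ((C0 + 1)⁻¹ * |u x|) := by field_simp
  rw [h2]
  calc (C0 + 1) * ((C0 + 1)⁻¹ * |u x|) ≤ (C0 + 1) * (C * ((dF O x : ℝ) / R) ^ β) := by gcongr
    _ ≤ (C0 + 1) * (|C| * ((dF O x : ℝ) / R) ^ β) := by gcongr; exact le_abs_self C
    _ = _ := by ring

/-- The cut-off changes the pairing only little. -/
theorem pair_cut {O : Set Pt} {R s : ℕ} {φ u χ : Pt → ℝ} {C0 Cd Cc β : ℝ} (hR : 1 ≤ R)
    (hC0 : 0 ≤ C0) (hCd : 0 ≤ Cd) (hβ : 0 < β) (hφb : IsBump (0, 0) R (C0 / (R : ℝ) ^ 2) φ)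
    (hu : IsGreen O φ u) (hO : O.Finite)
    (hdec : ∀ x, |u x| ≤ Cd * ((dF O x : ℝ) / R) ^ β) (hχ : IsCut O s Cc χ) :
    |pair φ u - pair (fun y => χ y * u y) φ| ≤ 9 * C0 * Cd * ((2 * s : ℝ) / R) ^ β := by
  have hRr : (1 : ℝ) ≤ R := by exact_mod_cast hR
  have hfs := fs_green hO hu
  have e : pair φ u - pair (fun y => χ y * u y) φ = ∑ᶠ x, φ x * (u x * (1 - χ x)) := by
    unfold pair
    rw [← finsum_sub_distrib (f := fun x => φ x * u x) (g := fun x => χ x * u x * φ x)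
      (hfs.mul_left φ) ((hfs.mul_left χ).mul_right φ)]
    exact finsum_congr (fun x => by ring)
  rw [e]
  have hb : ∀ y, |φ y * (u y * (1 - χ y))| ≤ C0 / (R : ℝ) ^ 2 * (Cd * ((2 * s : ℝ) / R) ^ β) := by
    intro y
    rw [abs_mul]
    apply mul_le_mul (IsBump.abs_le hφb y) _ (abs_nonneg _) (by positivity)
    by_cases hy : 2 * s ≤ dF O y
    · rw [hχ.one y hy]; simp; positivity
    · rw [abs_mul]
      have h1 : |1 - χ y| ≤ 1 := by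
        rw [abs_le]; constructor <;> linarith [hχ.nonneg y, hχ.le_one y]
      have h2 : ((dF O y : ℝ) / R) ^ β ≤ ((2 * s : ℝ) / R) ^ β := by
        apply Real.rpow_le_rpow (by positivity) _ hβ.le
        gcongr
        have : dF O y ≤ 2 * s := by omega
        exact_mod_cast this
      calc |u y| * |1 - χ y| ≤ |u y| * 1 := by gcongr
        _ ≤ Cd * ((dF O y : ℝ) / R) ^ β := by rw [mul_one]; exact hdec y
        _ ≤ _ := by gcongr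
  have h0 : ∀ y, y ∉ box (0, 0) R → φ y * (u y * (1 - χ y)) = 0 := by
    intro y hy; rw [hφb.1 y hy, zero_mul]
  refine (abs_finsum_le hb h0).trans ?_
  have e1 : (2 * (R : ℝ) + 1) ^ 2 ≤ (3 * R) ^ 2 := by
    apply pow_le_pow_left₀ (by positivity)
    linarith
  calc (2 * (R : ℝ) + 1) ^ 2 * (C0 / (R : ℝ) ^ 2 * (Cd * ((2 * s : ℝ) / R) ^ β))
      ≤ (3 * R) ^ 2 * (C0 / (R : ℝ) ^ 2 * (Cd * ((2 * s : ℝ) / R) ^ β)) := by gcongr
    _ = 9 * C0 * Cd * ((2 * s : ℝ) / R) ^ β := by field_simp; ring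

/-- The good events, chosen for all boxes at once. -/
theorem good_events {c0 κ a p Θ C0 : ℝ} {CE : ℝ}
    (hE : ∀ (R : ℕ) (T : Temp), 1 ≤ R → Fits T R → ∀ (x : Pt) (n : ℕ), (R : ℝ) ^ a ≤ n →
      2 * n ≤ dF T.faceSet x → ∃ G : Set Conf, Pr T.V (fun ω => ω ∉ G) ≤ CE * (R : ℝ) ^ (-p) ∧
      ∀ ω ∈ DD T.V, ω ∈ G → ∀ (H : ℝ) (ψ φ : Pt → ℝ), IsBump x ⌊(n : ℝ) ^ (1 - 3 * κ)⌋₊ H ψ →
      (∀ y, |φ y| ≤ C0 / (R : ℝ) ^ 2) → ∀ θ : ℝ, |θ| ≤ Θ →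
      ‖cEx T.V (outside (Fk T.V 0) (box x n))
          (fun ω' => (hf ω' (lap ψ) : ℂ) * Complex.exp (Complex.I * θ * hf ω' φ)) ω +
        Complex.I * θ * (2 / Real.pi) * pair ψ φ * cEx T.V (outside (Fk T.V 0) (box x n))
          (fun ω' => Complex.exp (Complex.I * θ * hf ω' φ)) ω‖ ≤
        CE * H * (R : ℝ) ^ κ *
          ((n : ℝ) ^ (-1 + κ) + (n / R : ℝ) ^ 2 * (n : ℝ) ^ (-c0) + (n / R : ℝ) ^ 4))
    (hCE : 0 ≤ CE) {R : ℕ} {T : Temp} (hR : 1 ≤ R) (hT : Fits T R) :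
    ∃ G : Pt → ℕ → Set Conf, (∀ x n, Ex T.V (bad (G x n)) ≤ CE * (R : ℝ) ^ (-p)) ∧
      ∀ (x : Pt) (n : ℕ), (R : ℝ) ^ a ≤ n → 2 * n ≤ dF T.faceSet x → ∀ ω ∈ DD T.V, ω ∈ G x n →
      ∀ (H : ℝ) (ψ φ : Pt → ℝ), IsBump x ⌊(n : ℝ) ^ (1 - 3 * κ)⌋₊ H ψ →
      (∀ y, |φ y| ≤ C0 / (R : ℝ) ^ 2) → ∀ θ : ℝ, |θ| ≤ Θ →
      ‖cEx T.V (outside (Fk T.V 0) (box x n)) (sdTerm φ ψ θ) ω‖ ≤
        CE * H * (R : ℝ) ^ κ *
          ((n : ℝ) ^ (-1 + κ) + (n / R : ℝ) ^ 2 * (n : ℝ) ^ (-c0) + (n / R : ℝ) ^ 4) := by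
  have hex : ∀ (x : Pt) (n : ℕ), ∃ G : Set Conf, Ex T.V (bad G) ≤ CE * (R : ℝ) ^ (-p) ∧
      ((R : ℝ) ^ a ≤ n → 2 * n ≤ dF T.faceSet x → ∀ ω ∈ DD T.V, ω ∈ G →
      ∀ (H : ℝ) (ψ φ : Pt → ℝ), IsBump x ⌊(n : ℝ) ^ (1 - 3 * κ)⌋₊ H ψ →
      (∀ y, |φ y| ≤ C0 / (R : ℝ) ^ 2) → ∀ θ : ℝ, |θ| ≤ Θ →
      ‖cEx T.V (outside (Fk T.V 0) (box x n)) (sdTerm φ ψ θ) ω‖ ≤
        CE * H * (R : ℝ) ^ κ *
          ((n : ℝ) ^ (-1 + κ) + (n / R : ℝ) ^ 2 * (n : ℝ) ^ (-c0) + (n / R : ℝ) ^ 4)) := by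
    intro x n
    by_cases h1 : (R : ℝ) ^ a ≤ n
    · by_cases h2 : 2 * n ≤ dF T.faceSet x
      · obtain ⟨G, hG1, hG2⟩ := hE R T hR hT x n h1 h2
        refine ⟨G, hG1, fun _ _ ω hω hg H ψ φ hψ hφ θ hθ => ?_⟩
        have := hG2 ω hω hg H ψ φ hψ hφ θ hθ
        rw [cEx_eq_avg, avg_sdTerm]
        exact this
      · refine ⟨Set.univ, ?_, fun _ h => absurd h h2⟩
        apply Ex_le_const (by positivity)
        intro ω _
        unfold bad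
        rw [Set.indicator_of_notMem (by simp)]
        positivity
    · refine ⟨Set.univ, ?_, fun h => absurd h h1⟩
      apply Ex_le_const (by positivity)
      intro ω _
      unfold bad
      rw [Set.indicator_of_notMem (by simp)]
      positivity
  choose G hG1 hG2 using hex
  exact ⟨G, hG1, hG2⟩

/-- The Whitney data for one atom, as delivered by `W_final`. -/
structure WData (O : Set Pt) (R s M : ℕ) (κ C : ℝ) (u : Pt → ℝ) where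
  χ : Pt → ℝ
  cut : IsCut O s C χ
  I : Finset ℕ
  x : ℕ → Pt
  n : ℕ → ℕ
  H : ℕ → ℝ
  ψ : ℕ → Pt → ℝ
  hn : ∀ q ∈ I, s ≤ 16 * n q ∧ n q ≤ M ∧ 4 * n q ≤ dF O (x q) ∧ 0 ≤ H q ∧
    IsBump (x q) ⌊(n q : ℝ) ^ (1 - 3 * κ)⌋₊ (H q) (ψ q)
  sum : ∀ y, χ y * u y = ∑ q ∈ I, ψ q y
  scale : ∀ m : ℕ, (∑ q ∈ I.filter (fun q => n q = m), H q) *
    (⌊(m : ℝ) ^ (1 - 3 * κ)⌋₊ : ℝ) ^ 2 ≤
      C * (if 2 * m ≤ M then (m : ℝ) ^ 2 else (R : ℝ) ^ 2)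
  card : ((I.image n).card : ℝ) ≤ C * (1 + Real.log R)

theorem eSD_mono {κ c c' R m : ℝ} (hR : 0 ≤ R) (hm : 1 ≤ m) (h : c' ≤ c) :
    eSD κ c R m ≤ eSD κ c' R m := by
  unfold eSD
  have : m ^ (-c) ≤ m ^ (-c') := Real.rpow_le_rpow_of_exponent_le hm (by linarith)
  gcongr

/-- total height of the bumps -/
theorem sum_H {O : Set Pt} {R s M : ℕ} {κ C : ℝ} {u : Pt → ℝ} (W : WData O R s M κ C u)
    (hC : 0 ≤ C) (hR : 1 ≤ R) (hMR : M ≤ R)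
    (hpar : ∀ n : ℕ, s ≤ 16 * n → 1 ≤ ⌊(n : ℝ) ^ (1 - 3 * κ)⌋₊) :
    ∑ q ∈ W.I, W.H q ≤ C * (1 + Real.log R) * (C * (R : ℝ) ^ 2) := by
  have hRr : (1 : ℝ) ≤ R := by exact_mod_cast hR
  have h1 : ∑ q ∈ W.I, W.H q = ∑ q ∈ W.I, W.H q * (fun _ : ℕ => (1 : ℝ)) (W.n q) := by simp
  rw [h1]
  refine sum_scales (e := fun _ => (1 : ℝ)) (H := W.H) (B := C * (R : ℝ) ^ 2) ?_ (by positivity)
    W.card
  intro m hm
  obtain ⟨q, hq, rfl⟩ := Finset.mem_image.1 hm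
  set m := W.n q with hmdef
  have ht : (1 : ℝ) ≤ (⌊(m : ℝ) ^ (1 - 3 * κ)⌋₊ : ℝ) := by
    exact_mod_cast hpar m (W.hn q hq).1
  have hS : 0 ≤ ∑ q ∈ W.I.filter (fun q => W.n q = m), W.H q :=
    Finset.sum_nonneg (fun q hq => (W.hn q (Finset.mem_filter.1 hq).1).2.2.2.1)
  rw [mul_one]
  calc ∑ q ∈ W.I.filter (fun q => W.n q = m), W.H q
      = (∑ q ∈ W.I.filter (fun q => W.n q = m), W.H q) * 1 := (mul_one _).symm
    _ ≤ (∑ q ∈ W.I.filter (fun q => W.n q = m), W.H q) *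
        (⌊(m : ℝ) ^ (1 - 3 * κ)⌋₊ : ℝ) ^ 2 := by
        apply mul_le_mul_of_nonneg_left (one_le_pow₀ ht) hS
    _ ≤ C * (if 2 * m ≤ M then (m : ℝ) ^ 2 else (R : ℝ) ^ 2) := W.scale m
    _ ≤ C * (R : ℝ) ^ 2 := by
        apply mul_le_mul_of_nonneg_left _ hC
        split_ifs with hc
        · apply pow_le_pow_left₀ (by positivity)
          have : m ≤ R := by omega
          exact_mod_cast this
        · exact le_rfl

/-- The sum of all bad probabilities, conditionally. -/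
noncomputable def badSum (T : Temp) (k R : ℕ) (G : Pt → ℕ → Set Conf) (ω : Conf) : ℝ :=
  ∑ x ∈ box (0, 0) R, ∑ n ∈ Finset.range (R + 1), cEx T.V (Fk T.V k) (bad (G x n)) ω

theorem card_box' (x : Pt) (r : ℕ) : ((box x r).card : ℝ) = (2 * r + 1) ^ 2 := by
  unfold box
  rw [Finset.card_product, Int.card_Icc, Int.card_Icc]
  have h1 : (x.1 + ↑r + 1 - (x.1 - ↑r)).toNat = 2 * r + 1 := by omega
  have h2 : (x.2 + ↑r + 1 - (x.2 - ↑r)).toNat = 2 * r + 1 := by omega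
  rw [h1, h2]
  push_cast
  ring

theorem Ex_badSum (hex : L_expl) {T : Temp} {k R : ℕ} {G : Pt → ℕ → Set Conf} {P0 : ℝ}
    (hG : ∀ x n, Ex T.V (bad (G x n)) ≤ P0) :
    Ex T.V (badSum T k R G) ≤ (2 * R + 1) ^ 2 * ((R + 1) * P0) := by
  have h1 : Ex T.V (badSum T k R G) =
      ∑ x ∈ box (0, 0) R, ∑ n ∈ Finset.range (R + 1), Ex T.V (bad (G x n)) := by
    unfold badSum
    rw [Ex_eq_avg, avg_sum]
    refine Finset.sum_congr rfl (fun x _ => ?_)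
    rw [avg_sum]
    refine Finset.sum_congr rfl (fun n _ => ?_)
    exact Ex_cEx (hex T k) _
  rw [h1]
  calc ∑ x ∈ box (0, 0) R, ∑ n ∈ Finset.range (R + 1), Ex T.V (bad (G x n))
      ≤ ∑ x ∈ box (0, 0) R, ∑ n ∈ Finset.range (R + 1), P0 :=
        Finset.sum_le_sum (fun x _ => Finset.sum_le_sum (fun n _ => hG x n))
    _ = (2 * R + 1) ^ 2 * ((R + 1) * P0) := by
        rw [Finset.sum_const, Finset.sum_const, nsmul_eq_mul, nsmul_eq_mul, card_box',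
          Finset.card_range]
        push_cast
        ring

/-- Bound for one atom. -/
theorem atom_bound (hk1 : L_hk) (hk2 : L_const) (hex : L_expl) (hin : L_in) {T : Temp} {k : ℕ}
    {ω : Conf} (hω : ω ∈ DD T.V) {R s M : ℕ} {κ a c0 c C CE C0 Θ : ℝ}
    (hκ : 0 < κ) (hκa : κ ≤ a / 40) (hκc : κ ≤ c / 40) (hκ2 : κ ≤ 1 / 200) (ha : a ≤ 1 / 2)
    (hc : 0 < c) (hc1 : c ≤ 1) (hcc : c ≤ c0) (hC : 0 ≤ C) (hCE : 0 ≤ CE) (hC0 : 0 ≤ C0)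
    (hR : 1 ≤ R) (hT : Fits T R) (hs : 1 ≤ s)
    (hMR : M ≤ R) (hM : M ≤ ⌊(R : ℝ) ^ (9 / 10 : ℝ)⌋₊) (hM2 : (R : ℝ) ^ (9 / 10 : ℝ) ≤ 2 * M)
    (hpar : ∀ n : ℕ, s ≤ 16 * n → (R : ℝ) ^ (a / 2) ≤ n ∧
        1 ≤ ⌊(n : ℝ) ^ (1 - 3 * κ)⌋₊ ∧ 16 * ⌊(n : ℝ) ^ (1 - 3 * κ)⌋₊ ≤ n ∧
        (n : ℝ) ^ (1 - 3 * κ) ≤ 2 * ⌊(n : ℝ) ^ (1 - 3 * κ)⌋₊)
    {φ u : Pt → ℝ} (hφ : IsBump (0, 0) R (C0 / (R : ℝ) ^ 2) φ) (hu : IsGreen (Ok T k ω) φ u)
    (W : WData (Ok T k ω) R s M κ C u) {G : Pt → ℕ → Set Conf}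
    (hG : ∀ (x : Pt) (n : ℕ), (R : ℝ) ^ (a / 2) ≤ n → 2 * n ≤ dF T.faceSet x →
      ∀ ω ∈ DD T.V, ω ∈ G x n →
      ∀ (H : ℝ) (ψ φ : Pt → ℝ), IsBump x ⌊(n : ℝ) ^ (1 - 3 * κ)⌋₊ H ψ →
      (∀ y, |φ y| ≤ C0 / (R : ℝ) ^ 2) → ∀ θ : ℝ, |θ| ≤ Θ →
      ‖cEx T.V (outside (Fk T.V 0) (box x n)) (sdTerm φ ψ θ) ω‖ ≤
        CE * H * (R : ℝ) ^ κ *
          ((n : ℝ) ^ (-1 + κ) + (n / R : ℝ) ^ 2 * (n : ℝ) ^ (-c0) + (n / R : ℝ) ^ 4))
    {τ : ℝ} (hτ : |τ| ≤ Θ) {EP : ℝ}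
    (hEP : |pair φ u - pair (fun y => W.χ y * u y) φ| ≤ EP) :
    ‖odeErr (atom T.V (Fk T.V k) ω) (fun ω' => hkf k ω' φ) (2 / Real.pi * pair φ u) τ‖ ≤
      cEx T.V (Fk T.V k) (fun ω' => |hkf k ω' (fL (Ok T k ω) φ W.χ u)|) ω +
      CE * (C * (1 + Real.log R) *
        (4 * C * (R ^ (-(a / 4)) + 67 * (R : ℝ) ^ (-(1 / 10 : ℝ)) + 4 * (R : ℝ) ^ (-(c / 2))))) +
      (1400 + 9 * Θ * C0) * (R : ℝ) ^ 3 * (C * (1 + Real.log R) * (C * (R : ℝ) ^ 2)) *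
        badSum T k R G ω + Θ * EP := by
  have hRr : (1 : ℝ) ≤ R := by exact_mod_cast hR
  have hΘ : 0 ≤ Θ := (abs_nonneg _).trans hτ
  have hfin : T.faceSet.Finite := fs_of_sub_box hT
  have hO : (Ok T k ω).Finite := hfin.subset (Ok_sub T k ω)
  have key := key_atom hk1 hk2 hω (IsBump.fs hφ) hu hO W.cut hs W.I W.ψ
    (fun q hq => IsBump.fs (W.hn q hq).2.2.2.2) W.sum τ
  have hEP0 : 0 ≤ EP := (abs_nonneg _).trans hEP
  have hterm : ∀ q ∈ W.I, ‖cEx T.V (Fk T.V k) (sdTerm φ (W.ψ q) τ) ω‖ ≤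
      CE * (W.H q * eSD κ c R (W.n q)) +
      (1400 + 9 * Θ * C0) * (R : ℝ) ^ 3 * (W.H q * badSum T k R G ω) := by
    intro q hq
    obtain ⟨q1, q2, q3, q4, q5⟩ := W.hn q hq
    obtain ⟨p1, p2, p3, p4⟩ := hpar (W.n q) q1
    have hn1r : (1 : ℝ) ≤ W.n q := by
      have ha0 : 0 < a := by linarith
      exact (Real.one_le_rpow hRr (by linarith)).trans p1
    have hn1 : 1 ≤ W.n q := by exact_mod_cast hn1r
    have hd2 : 2 * W.n q ≤ dF T.faceSet (W.x q) := by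
      have := dF_mono (Ok_sub T k ω) hfin (W.x q)
      omega
    have hb := q_bound hex hin hω hn1 q3 (G := G (W.x q) (W.n q)) (W := sdTerm φ (W.ψ q) τ)
      (b := CE * (W.H q * eSD κ c R (W.n q))) (b' := (1400 + 9 * Θ * C0) * (R : ℝ) ^ 3 * W.H q)
      (mul_nonneg hCE (mul_nonneg q4 (eSD_nonneg (by linarith) (by linarith))))
      (by positivity)
      (by
        intro ω' h' hg
        refine (hG (W.x q) (W.n q) p1 hd2 ω' h' hg (W.H q) (W.ψ q) φ q5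
          (fun y => IsBump.abs_le hφ y) τ hτ).trans ?_
        have h1 := eSD_mono (κ := κ) (R := (R : ℝ)) (by linarith) hn1r hcc
        have h2 : CE * W.H q * (R : ℝ) ^ κ * ((W.n q : ℝ) ^ (-1 + κ) +
            (W.n q / R : ℝ) ^ 2 * (W.n q : ℝ) ^ (-c0) + (W.n q / R : ℝ) ^ 4) =
            CE * (W.H q * eSD κ c0 R (W.n q)) := by unfold eSD; ring
        rw [h2]
        gcongr)
      (fun ω' h' => norm_sdTerm_le hR hT h' q5 (by omega) hC0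
        (fun y => IsBump.abs_le hφ y) hτ)
    refine hb.trans ?_
    have hle : cEx T.V (Fk T.V k) (bad (G (W.x q) (W.n q))) ω ≤ badSum T k R G ω := by
      unfold badSum
      have hx : W.x q ∈ box (0, 0) R := by
        have : W.x q ∈ Ok T k ω := mem_of_dF_pos (by omega)
        exact hT (Ok_sub T k ω this)
      have hnn : ∀ x n, 0 ≤ cEx T.V (Fk T.V k) (bad (G x n)) ω :=
        fun x n => cEx_nonneg (fun ω' _ => bad_nonneg _ _)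
      calc cEx T.V (Fk T.V k) (bad (G (W.x q) (W.n q))) ω
          ≤ ∑ n ∈ Finset.range (R + 1), cEx T.V (Fk T.V k) (bad (G (W.x q) n)) ω :=
            Finset.single_le_sum (f := fun n => cEx T.V (Fk T.V k) (bad (G (W.x q) n)) ω)
              (fun n _ => hnn _ _) (Finset.mem_range.2 (by omega))
        _ ≤ _ := Finset.single_le_sum
            (f := fun x => ∑ n ∈ Finset.range (R + 1), cEx T.V (Fk T.V k) (bad (G x n)) ω)
              (fun x _ => Finset.sum_nonneg (fun n _ => hnn _ _)) hx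
    have : (1400 + 9 * Θ * C0) * (R : ℝ) ^ 3 * W.H q *
        cEx T.V (Fk T.V k) (bad (G (W.x q) (W.n q))) ω ≤
        (1400 + 9 * Θ * C0) * (R : ℝ) ^ 3 * W.H q * badSum T k R G ω :=
      mul_le_mul_of_nonneg_left hle (by positivity)
    linarith
  have hbs : 0 ≤ badSum T k R G ω :=
    Finset.sum_nonneg (fun x _ => Finset.sum_nonneg (fun n _ =>
      cEx_nonneg (fun ω' _ => bad_nonneg _ _)))
  have hgood := good_sum hκ hκa hκc hκ2 ha hc hc1 hR hM hM2 hpar hC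
    (fun q hq => ⟨(W.hn q hq).1, (W.hn q hq).2.1⟩) W.scale W.card
  have hH := sum_H W hC hR hMR (fun n hn => (hpar n hn).2.1)
  have hsum : ∑ q ∈ W.I, ‖cEx T.V (Fk T.V k) (sdTerm φ (W.ψ q) τ) ω‖ ≤
      CE * (C * (1 + Real.log R) *
        (4 * C * (R ^ (-(a / 4)) + 67 * (R : ℝ) ^ (-(1 / 10 : ℝ)) + 4 * (R : ℝ) ^ (-(c / 2))))) +
      (1400 + 9 * Θ * C0) * (R : ℝ) ^ 3 * (C * (1 + Real.log R) * (C * (R : ℝ) ^ 2)) *
        badSum T k R G ω := by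
    calc ∑ q ∈ W.I, ‖cEx T.V (Fk T.V k) (sdTerm φ (W.ψ q) τ) ω‖
        ≤ ∑ q ∈ W.I, (CE * (W.H q * eSD κ c R (W.n q)) +
          (1400 + 9 * Θ * C0) * (R : ℝ) ^ 3 * (W.H q * badSum T k R G ω)) :=
          Finset.sum_le_sum hterm
      _ = CE * ∑ q ∈ W.I, W.H q * eSD κ c R (W.n q) +
          (1400 + 9 * Θ * C0) * (R : ℝ) ^ 3 * ((∑ q ∈ W.I, W.H q) * badSum T k R G ω) := by
          rw [Finset.sum_add_distrib, Finset.mul_sum, Finset.sum_mul, Finset.mul_sum]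
      _ ≤ CE * (C * (1 + Real.log R) * (4 * C * (R ^ (-(a / 4)) + 67 * (R : ℝ) ^ (-(1 / 10 : ℝ)) +
            4 * (R : ℝ) ^ (-(c / 2))))) +
          (1400 + 9 * Θ * C0) * (R : ℝ) ^ 3 *
            ((C * (1 + Real.log R) * (C * (R : ℝ) ^ 2)) * badSum T k R G ω) := by
          gcongr
      _ = _ := by ring
  have hlast : |τ| * (2 / Real.pi) * |pair φ u - pair (fun y => W.χ y * u y) φ| ≤ Θ * EP := by
    calc |τ| * (2 / Real.pi) * |pair φ u - pair (fun y => W.χ y * u y) φ|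
        ≤ Θ * 1 * EP := by
          apply mul_le_mul (mul_le_mul hτ two_div_pi_le_one (by positivity) hΘ) hEP
            (abs_nonneg _) (by positivity)
      _ = Θ * EP := by ring
  linarith

end Vale.Agent.P155.J
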