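import Vale.Agent.P155.J.CEx

/-!
# P155, block J: the differential inequality for conditional characteristic functions
-/

namespace Vale.Agent.P155.J

open Finset MeasureTheory

variable {α : Type*}

/-- error in the equation `E[X e^{iτX}] = iτ c E[e^{iτX}]` -/
noncomputable def odeErr (B : Finset α) (X : α → ℝ) (c τ : ℝ) : ℂ :=
  avg B (fun b => (X b : ℂ) * Complex.exp (Complex.I * τ * X b)) -
    Complex.I * τ * c * avg B (fun b => Complex.exp (Complex.I * τ * X b))

theorem continuous_odeErr (B : Finset α) (X : α → ℝ) (c : ℝ) :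
    Continuous (fun τ : ℝ => odeErr B X c τ) := by
  unfold odeErr avg
  fun_prop

theorem ode_single {B : Finset α} (hB : B.Nonempty) (X : α → ℝ) {c : ℝ} (hc : 0 ≤ c) (θ : ℝ) :
    ‖avg B (fun b => Complex.exp (Complex.I * θ * X b)) - (Real.exp (-(c * θ ^ 2 / 2)) : ℝ)‖ ≤
      |θ| * ∫ s in (0:ℝ)..1, ‖odeErr B X c (s * θ)‖ := by
  -- the function `f s = E[e^{isθX}] e^{c s² θ² / 2}`
  set Ψ : ℝ → ℂ := fun s => avg B (fun b => Complex.exp (Complex.I * ((s * θ : ℝ) : ℂ) * X b)) with hΨ
  set f : ℝ → ℂ := fun s => Ψ s * Complex.exp ((c * (s * θ) ^ 2 / 2 : ℝ) : ℂ) with hf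
  have hΨd : ∀ s : ℝ, HasDerivAt Ψ
      (Complex.I * θ * avg B (fun b => (X b : ℂ) * Complex.exp (Complex.I * ((s * θ : ℝ) : ℂ) * X b))) s := by
    intro s
    have h1 : ∀ b : α, HasDerivAt (fun s : ℝ => Complex.exp (Complex.I * ((s * θ : ℝ) : ℂ) * X b))
        (Complex.I * θ * ((X b : ℂ) * Complex.exp (Complex.I * ((s * θ : ℝ) : ℂ) * X b))) s := by
      intro b
      have h2 : HasDerivAt (fun s : ℝ => Complex.I * ((s * θ : ℝ) : ℂ) * X b)
          (Complex.I * θ * X b) s := by
        have h3 : HasDerivAt (fun s : ℝ => ((s * θ : ℝ) : ℂ)) (θ : ℂ) s := by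
          have := ((hasDerivAt_id s).mul_const θ).ofReal_comp
          simpa using this
        have := (h3.const_mul Complex.I).mul_const (X b : ℂ)
        simpa using this
      have := h2.cexp
      convert this using 1
      ring
    have h4 : HasDerivAt (fun s : ℝ => ∑ b ∈ B, Complex.exp (Complex.I * ((s * θ : ℝ) : ℂ) * X b))
        (∑ b ∈ B, (Complex.I * θ * ((X b : ℂ) * Complex.exp (Complex.I * ((s * θ : ℝ) : ℂ) * X b)))) s :=
      HasDerivAt.fun_sum (fun b _ => h1 b)
    have h5 := h4.const_smul ((B.card : ℝ)⁻¹)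
    refine h5.congr_deriv ?_
    rw [← Finset.mul_sum]
    unfold avg
    simp only [Complex.real_smul]
    ring
  have hgd : ∀ s : ℝ, HasDerivAt (fun s : ℝ => Complex.exp ((c * (s * θ) ^ 2 / 2 : ℝ) : ℂ))
      ((c * (s * θ) * θ : ℝ) * Complex.exp ((c * (s * θ) ^ 2 / 2 : ℝ) : ℂ)) s := by
    intro s
    have h1 : HasDerivAt (fun s : ℝ => c * (s * θ) ^ 2 / 2) (c * (s * θ) * θ) s := by
      have h2 := (((hasDerivAt_id s).mul_const θ).pow 2).const_mul c |>.div_const 2
      refine h2.congr_deriv ?_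
      simp
      ring
    have h3 := h1.ofReal_comp.cexp
    refine h3.congr_deriv ?_
    ring
  have hfd : ∀ s : ℝ, HasDerivAt f
      (Complex.I * θ * odeErr B X c (s * θ) * Complex.exp ((c * (s * θ) ^ 2 / 2 : ℝ) : ℂ)) s := by
    intro s
    have h := (hΨd s).mul (hgd s)
    refine h.congr_deriv ?_
    have hI : Complex.I * Complex.I = -1 := Complex.I_mul_I
    simp only [odeErr, hΨ]
    push_cast
    linear_combination (θ * (s * θ) * c * avg B (fun b => Complex.exp (Complex.I * (s * θ) * X b)) *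
      Complex.exp (c * (s * θ) ^ 2 / 2)) * hI
  have hcont : Continuous (fun s : ℝ => Complex.I * θ * odeErr B X c (s * θ) *
      Complex.exp ((c * (s * θ) ^ 2 / 2 : ℝ) : ℂ)) := by
    have := (continuous_odeErr B X c).comp (continuous_id.mul continuous_const : Continuous (fun s : ℝ => s * θ))
    have h2 : Continuous (fun s : ℝ => odeErr B X c (s * θ)) := this
    fun_prop
  have hint : ∫ s in (0:ℝ)..1, Complex.I * θ * odeErr B X c (s * θ) *
      Complex.exp ((c * (s * θ) ^ 2 / 2 : ℝ) : ℂ) = f 1 - f 0 :=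
    intervalIntegral.integral_eq_sub_of_hasDerivAt (fun s _ => hfd s) (hcont.intervalIntegrable _ _)
  have hf0 : f 0 = 1 := by
    simp only [hf, hΨ]
    simp [avg_const hB]
  have hf1 : f 1 = avg B (fun b => Complex.exp (Complex.I * θ * X b)) *
      Complex.exp ((c * θ ^ 2 / 2 : ℝ) : ℂ) := by
    simp only [hf, hΨ, one_mul]
  have hcont2 : Continuous (fun s : ℝ => ‖odeErr B X c (s * θ)‖) := by
    have := (continuous_odeErr B X c).comp (continuous_id.mul continuous_const : Continuous (fun s : ℝ => s * θ))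
    exact this.norm
  have hbound : ‖f 1 - f 0‖ ≤ |θ| * Real.exp (c * θ ^ 2 / 2) * ∫ s in (0:ℝ)..1, ‖odeErr B X c (s * θ)‖ := by
    rw [← hint, ← intervalIntegral.integral_const_mul]
    apply intervalIntegral.norm_integral_le_of_norm_le (by norm_num)
    · refine Filter.Eventually.of_forall (fun s hs => ?_)
      rw [norm_mul, norm_mul, norm_mul, Complex.norm_I, one_mul, Complex.norm_real,
        Real.norm_eq_abs, Complex.norm_exp_ofReal]
      have h1 : Real.exp (c * (s * θ) ^ 2 / 2) ≤ Real.exp (c * θ ^ 2 / 2) := by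
        apply Real.exp_le_exp.2
        have hs1 : s ^ 2 ≤ 1 := by
          have h1 := hs.1; have h2 := hs.2
          nlinarith
        have : c * (s * θ) ^ 2 ≤ c * θ ^ 2 := by
          rw [mul_pow]
          apply mul_le_mul_of_nonneg_left _ hc
          nlinarith [sq_nonneg θ]
        linarith
      calc |θ| * ‖odeErr B X c (s * θ)‖ * Real.exp (c * (s * θ) ^ 2 / 2)
          ≤ |θ| * ‖odeErr B X c (s * θ)‖ * Real.exp (c * θ ^ 2 / 2) :=
            mul_le_mul_of_nonneg_left h1 (by positivity)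
        _ = |θ| * Real.exp (c * θ ^ 2 / 2) * ‖odeErr B X c (s * θ)‖ := by ring
    · exact (continuous_const.mul hcont2).intervalIntegrable _ _
  have hE : (0:ℝ) < Real.exp (c * θ ^ 2 / 2) := Real.exp_pos _
  have hkey : f 1 - f 0 = (avg B (fun b => Complex.exp (Complex.I * θ * X b)) -
      (Real.exp (-(c * θ ^ 2 / 2)) : ℝ)) * (Real.exp (c * θ ^ 2 / 2) : ℝ) := by
    rw [hf0, hf1, sub_mul, ← Complex.ofReal_exp, ← Complex.ofReal_mul, ← Real.exp_add]
    simp
  rw [hkey, norm_mul, Complex.norm_real, Real.norm_of_nonneg hE.le] at hbound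
  have h2 : |θ| * Real.exp (c * θ ^ 2 / 2) * ∫ s in (0:ℝ)..1, ‖odeErr B X c (s * θ)‖ =
      (|θ| * ∫ s in (0:ℝ)..1, ‖odeErr B X c (s * θ)‖) * Real.exp (c * θ ^ 2 / 2) := by ring
  rw [h2] at hbound
  exact le_of_mul_le_mul_right hbound hE

/-- If on average the equation `E[X e^{iτX}|B] = iτ c E[e^{iτX}|B]` holds up to `ε` for all
`|τ| ≤ |θ|`, then the conditional characteristic functions are Gaussian up to `|θ| ε`. -/
theorem char_close (A : Finset α) (B : α → Finset α) (hB : ∀ a ∈ A, (B a).Nonempty)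
    (X : α → α → ℝ) (c : α → ℝ) (hc : ∀ a ∈ A, 0 ≤ c a) {θ ε : ℝ}
    (h : ∀ τ : ℝ, |τ| ≤ |θ| → avg A (fun a => ‖odeErr (B a) (X a) (c a) τ‖) ≤ ε) :
    avg A (fun a => ‖avg (B a) (fun b => Complex.exp (Complex.I * θ * X a b)) -
      (Real.exp (-(c a * θ ^ 2 / 2)) : ℝ)‖) ≤ |θ| * ε := by
  have hcont : ∀ a, Continuous (fun s : ℝ => ‖odeErr (B a) (X a) (c a) (s * θ)‖) := by
    intro a
    have := (continuous_odeErr (B a) (X a) (c a)).comp
      (continuous_id.mul continuous_const : Continuous (fun s : ℝ => s * θ))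
    exact this.norm
  calc avg A (fun a => ‖avg (B a) (fun b => Complex.exp (Complex.I * θ * X a b)) -
      (Real.exp (-(c a * θ ^ 2 / 2)) : ℝ)‖)
      ≤ avg A (fun a => |θ| * ∫ s in (0:ℝ)..1, ‖odeErr (B a) (X a) (c a) (s * θ)‖) :=
        avg_mono (fun a ha => ode_single (hB a ha) (X a) (hc a ha) θ)
    _ = |θ| * ∫ s in (0:ℝ)..1, avg A (fun a => ‖odeErr (B a) (X a) (c a) (s * θ)‖) := by
        rw [avg_mul_left]
        congr 1
        unfold avg
        simp only [smul_eq_mul]
        rw [intervalIntegral.integral_const_mul, intervalIntegral.integral_finsetSum]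
        intro a _
        exact (hcont a).intervalIntegrable _ _
    _ ≤ |θ| * ∫ s in (0:ℝ)..1, ε := by
        apply mul_le_mul_of_nonneg_left _ (abs_nonneg _)
        apply intervalIntegral.integral_mono_on (by norm_num)
        · apply Continuous.intervalIntegrable
          have : Continuous (fun s : ℝ => ∑ a ∈ A, ‖odeErr (B a) (X a) (c a) (s * θ)‖) :=
            continuous_finsetSum _ (fun a _ => hcont a)
          have h2 : Continuous (fun s : ℝ => ((A.card : ℝ))⁻¹ *
              ∑ a ∈ A, ‖odeErr (B a) (X a) (c a) (s * θ)‖) := continuous_const.mul this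
          exact h2
        · exact intervalIntegrable_const
        · intro s hs
          apply h
          rw [abs_mul, abs_of_nonneg hs.1]
          nlinarith [hs.2, abs_nonneg θ]
    _ = |θ| * ε := by simp

end Vale.Agent.P155.J
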