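import Vale.Agent.P155.J.Decomp
import Vale.Agent.P155.J.ODE

/-!
# P155, block J: the key inequality for a fixed atom
-/

namespace Vale.Agent.P155.J

open Finset Skel

/-- `E[h(Δψ) e^{iτ h(φ)}] + iτ (2/π) ⟨ψ, φ⟩ E[e^{iτ h(φ)}]`, integrand -/
noncomputable def sdTerm (φ ψ : Pt → ℝ) (τ : ℝ) (ω : Conf) : ℂ :=
  (hf ω (lap ψ) : ℂ) * Complex.exp (Complex.I * τ * hf ω φ) +
    Complex.I * τ * (2 / Real.pi) * pair ψ φ * Complex.exp (Complex.I * τ * hf ω φ)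

theorem norm_exp_I (x y : ℝ) : ‖Complex.exp (Complex.I * x * y)‖ = 1 := by
  rw [show Complex.I * x * y = ((x * y : ℝ) : ℂ) * Complex.I by push_cast; ring]
  exact Complex.norm_exp_ofReal_mul_I _

/-- The key inequality: error in the equation for the conditional characteristic function. -/
theorem key_atom (hk1 : L_hk) (hk2 : L_const) {T : Temp} {k : ℕ} {ω : Conf}
    (hω : ω ∈ DD T.V) {φ u χ : Pt → ℝ} {s : ℕ} {C : ℝ} (hφ : FS φ)
    (hu : IsGreen (Ok T k ω) φ u) (hO : (Ok T k ω).Finite) (hχ : IsCut (Ok T k ω) s C χ)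
    (hs : 1 ≤ s) (I : Finset ℕ) (ψ : ℕ → Pt → ℝ) (hψ : ∀ q ∈ I, FS (ψ q))
    (hsum : ∀ y, χ y * u y = ∑ q ∈ I, ψ q y) (τ : ℝ) :
    ‖odeErr (atom T.V (Fk T.V k) ω) (fun ω' => hkf k ω' φ) (2 / Real.pi * pair φ u) τ‖ ≤
      cEx T.V (Fk T.V k) (fun ω' => |hkf k ω' (fL (Ok T k ω) φ χ u)|) ω +
      ∑ q ∈ I, ‖cEx T.V (Fk T.V k) (sdTerm φ (ψ q) τ) ω‖ +
      |τ| * (2 / Real.pi) * |pair φ u - pair (fun y => χ y * u y) φ| := by
  set B := atom T.V (Fk T.V k) ω with hB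
  have hmem : ∀ ω' ∈ B, ω' ∈ DD T.V ∧ AgreeOff (Fk T.V k ω) ω ω' := fun ω' h => mem_atom.1 h
  set H0 : ℝ := ∑ᶠ x, φ x * (hk k ω x : ℝ) with hH0
  have hexp : ∀ ω' ∈ B, Complex.exp (Complex.I * τ * hkf k ω' φ) =
      Complex.exp (Complex.I * τ * (-H0 : ℝ)) * Complex.exp (Complex.I * τ * hf ω' φ) := by
    intro ω' h'
    obtain ⟨h1, h2⟩ := hmem ω' h'
    have e2 : hk k ω' = hk k ω := (hk1 T k ω hω ω' h1 h2).2.1
    rw [hkf_split hφ, e2, ← hH0, ← Complex.exp_add]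
    congr 1
    push_cast
    ring
  have hX : ∀ ω' ∈ B, (hkf k ω' φ : ℂ) = (hkf k ω' (fL (Ok T k ω) φ χ u) : ℂ) -
      ∑ q ∈ I, (hf ω' (lap (ψ q)) : ℂ) := by
    intro ω' h'
    obtain ⟨h1, h2⟩ := hmem ω' h'
    have := hkf_decomp hk1 hk2 hω h1 h2 hφ hu hO hχ hs
    rw [this]
    have e1 : lap (fun x => χ x * u x) = fun x => ∑ q ∈ I, lap (ψ q) x := by
      funext x
      rw [← lap_sum]
      congr 1
      funext y
      exact hsum y
    rw [e1, hf_sum (fun q hq => fs_lap (hψ q hq))]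
    push_cast
    ring
  set E : ℂ := avg B (fun ω' => Complex.exp (Complex.I * τ * hkf k ω' φ)) with hE
  set E' : ℂ := avg B (fun ω' => Complex.exp (Complex.I * τ * hf ω' φ)) with hE'
  have hEE : E = Complex.exp (Complex.I * τ * (-H0 : ℝ)) * E' := by
    rw [hE, hE', ← avg_cmul_left]
    exact avg_congr hexp
  -- first moment
  have hM : avg B (fun ω' => (hkf k ω' φ : ℂ) * Complex.exp (Complex.I * τ * hkf k ω' φ)) =
      avg B (fun ω' => (hkf k ω' (fL (Ok T k ω) φ χ u) : ℂ) *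
        Complex.exp (Complex.I * τ * hkf k ω' φ)) -
      ∑ q ∈ I, (Complex.exp (Complex.I * τ * (-H0 : ℝ)) * (avg B (sdTerm φ (ψ q) τ) -
        Complex.I * τ * (2 / Real.pi) * pair (ψ q) φ * E')) := by
    have h1 : avg B (fun ω' => (hkf k ω' φ : ℂ) * Complex.exp (Complex.I * τ * hkf k ω' φ)) =
        avg B (fun ω' => (hkf k ω' (fL (Ok T k ω) φ χ u) : ℂ) *
          Complex.exp (Complex.I * τ * hkf k ω' φ) -
          ∑ q ∈ I, (Complex.exp (Complex.I * τ * (-H0 : ℝ)) *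
            ((hf ω' (lap (ψ q)) : ℂ) * Complex.exp (Complex.I * τ * hf ω' φ)))) := by
      refine avg_congr (fun ω' h' => ?_)
      have h4 : (hkf k ω' φ : ℂ) * Complex.exp (Complex.I * τ * hkf k ω' φ) =
          ((hkf k ω' (fL (Ok T k ω) φ χ u) : ℂ) - ∑ q ∈ I, (hf ω' (lap (ψ q)) : ℂ)) *
          Complex.exp (Complex.I * τ * hkf k ω' φ) :=
        congrArg (fun z => z * Complex.exp (Complex.I * τ * hkf k ω' φ)) (hX ω' h')
      rw [h4, sub_mul, Finset.sum_mul]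
      congr 1
      refine Finset.sum_congr rfl (fun q _ => ?_)
      rw [hexp ω' h']
      ring
    rw [h1, avg_sub, avg_sum]
    congr 1
    refine Finset.sum_congr rfl (fun q _ => ?_)
    rw [avg_cmul_left]
    congr 1
    have h2 : avg B (sdTerm φ (ψ q) τ) =
        avg B (fun ω' => (hf ω' (lap (ψ q)) : ℂ) * Complex.exp (Complex.I * τ * hf ω' φ)) +
        Complex.I * τ * (2 / Real.pi) * pair (ψ q) φ * E' := by
      rw [hE', ← avg_cmul_left, ← avg_add]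
      rfl
    rw [h2]; ring
  have hpair : ((pair (fun y => χ y * u y) φ : ℝ) : ℂ) = ∑ q ∈ I, ((pair (ψ q) φ : ℝ) : ℂ) := by
    rw [← Complex.ofReal_sum, ← pair_sum hψ φ]
    congr 2
    funext y
    exact hsum y
  have hodeq : odeErr B (fun ω' => hkf k ω' φ) (2 / Real.pi * pair φ u) τ =
      avg B (fun ω' => (hkf k ω' (fL (Ok T k ω) φ χ u) : ℂ) *
        Complex.exp (Complex.I * τ * hkf k ω' φ)) -
      Complex.exp (Complex.I * τ * (-H0 : ℝ)) * ∑ q ∈ I, avg B (sdTerm φ (ψ q) τ) -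
      Complex.I * τ * (2 / Real.pi) * ((pair φ u : ℂ) - (pair (fun y => χ y * u y) φ : ℂ)) * E := by
    unfold odeErr
    rw [hM, ← hE, hpair, hEE]
    have h3 : ∑ q ∈ I, (Complex.exp (Complex.I * τ * (-H0 : ℝ)) * (avg B (sdTerm φ (ψ q) τ) -
        Complex.I * τ * (2 / Real.pi) * pair (ψ q) φ * E')) =
        Complex.exp (Complex.I * τ * (-H0 : ℝ)) * ∑ q ∈ I, avg B (sdTerm φ (ψ q) τ) -
        Complex.exp (Complex.I * τ * (-H0 : ℝ)) * (Complex.I * τ * (2 / Real.pi) *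
          (∑ q ∈ I, (pair (ψ q) φ : ℂ)) * E') := by
      rw [← mul_sub]
      rw [← Finset.mul_sum]
      congr 1
      rw [Finset.sum_sub_distrib, Finset.mul_sum, Finset.sum_mul]
    rw [h3]
    push_cast
    ring
  rw [hodeq]
  have n1 : ‖avg B (fun ω' => (hkf k ω' (fL (Ok T k ω) φ χ u) : ℂ) *
      Complex.exp (Complex.I * τ * hkf k ω' φ))‖ ≤
      cEx T.V (Fk T.V k) (fun ω' => |hkf k ω' (fL (Ok T k ω) φ χ u)|) ω := by
    refine (norm_avg_le _ _).trans (le_of_eq ?_)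
    rw [cEx_eq_avg]
    refine avg_congr (fun ω' _ => ?_)
    rw [norm_mul, norm_exp_I, mul_one, Complex.norm_real, Real.norm_eq_abs]
  have n2 : ‖Complex.exp (Complex.I * τ * (-H0 : ℝ)) * ∑ q ∈ I, avg B (sdTerm φ (ψ q) τ)‖ ≤
      ∑ q ∈ I, ‖cEx T.V (Fk T.V k) (sdTerm φ (ψ q) τ) ω‖ := by
    rw [norm_mul, norm_exp_I, one_mul]
    exact norm_sum_le _ _
  have n3 : ‖Complex.I * τ * (2 / Real.pi) *
      ((pair φ u : ℂ) - (pair (fun y => χ y * u y) φ : ℂ)) * E‖ ≤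
      |τ| * (2 / Real.pi) * |pair φ u - pair (fun y => χ y * u y) φ| := by
    have hE1 : ‖E‖ ≤ 1 := by
      apply norm_avg_le_const (by norm_num)
      intro ω' _
      rw [norm_exp_I]
    rw [norm_mul, norm_mul, norm_mul, norm_mul, Complex.norm_I, one_mul, Complex.norm_real,
      Real.norm_eq_abs]
    have h4 : ‖(2 / Real.pi : ℂ)‖ = 2 / Real.pi := by
      rw [show (2 / Real.pi : ℂ) = ((2 / Real.pi : ℝ) : ℂ) by push_cast; rfl, Complex.norm_real,
        Real.norm_of_nonneg (by positivity)]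
    have h5 : ‖((pair φ u : ℂ) - (pair (fun y => χ y * u y) φ : ℂ))‖ =
        |pair φ u - pair (fun y => χ y * u y) φ| := by
      rw [← Complex.ofReal_sub, Complex.norm_real, Real.norm_eq_abs]
    rw [h4, h5]
    exact mul_le_of_le_one_right (by positivity) hE1
  calc ‖_ - _ - _‖ ≤ ‖_ - _‖ + ‖_‖ := norm_sub_le _ _
    _ ≤ (‖_‖ + ‖_‖) + ‖_‖ := by gcongr; exact norm_sub_le _ _
    _ ≤ _ := by linarith [n1, n2, n3]

end Vale.Agent.P155.J
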